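import Crest.Agent.R27.M.Defs
import Crest.Agent.R26.Abs.Grp

/-! Row 27, block M: choice of the parameters.  Prefix for helper lemmas: `mn_`. -/

set_option autoImplicit false

namespace Crest.Agent.R27.M

open Finset Filter Crest.Agent.R26 Crest.Agent.R26.S
open scoped Classical

noncomputable section

/-- as `S.ev_sT` with `a = 2 (1 + L^(γ/2)) ≤ 4 L^(1/40)` -/
theorem ev_sT2 (K : ℕ) {η : ℝ} (hη : 0 < η) : ∀ᶠ x : ℝ in atTop,
    Real.log x * (1 + Real.log x) * sT2 (zz K x) (kk x) ≤ η := by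
  have hlim : Tendsto (fun L : ℝ => 512 * ((L ^ (1 / 4 : ℝ) / 2) ^ 8 *
      Real.exp (-(L ^ (1 / 4 : ℝ) / 2)))) atTop (nhds (512 * 0)) :=
    ((Real.tendsto_pow_mul_exp_neg_atTop_nhds_zero 8).comp
      ((tendsto_rpow_atTop (by norm_num : (0 : ℝ) < 1 / 4)).atTop_div_const
        (by norm_num : (0 : ℝ) < 2))).const_mul 512
  rw [mul_zero] at hlim
  filter_upwards [Real.tendsto_log_atTop.eventually (hlim.eventually (gt_mem_nhds hη)),
    Real.tendsto_log_atTop.eventually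
      (na_pow_le 12 (a := 1 / 40) (b := 1 / 4) (c := 1 / 2) (by norm_num) (by norm_num)),
    Real.tendsto_log_atTop.eventually (eventually_ge_atTop 1)] with x h1 h2 hL
  refine le_trans ?_ h1.le
  unfold sT2 zz kk
  rw [Real.log_exp]
  generalize Real.log x = L at *
  have hg : L ^ (gam K / 2) ≤ L ^ (1 / 40 : ℝ) :=
    Real.rpow_le_rpow_of_exponent_le hL (na_gam_le K)
  have hg0 : 0 ≤ L ^ (gam K / 2) := Real.rpow_nonneg (by linarith) _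
  have hu : 1 ≤ L ^ (1 / 40 : ℝ) := Real.one_le_rpow hL (by norm_num)
  have hk : L ^ (1 / 4 : ℝ) ≤ (⌈L ^ (1 / 4 : ℝ)⌉₊ : ℝ) := Nat.le_ceil _
  have hL4 : (L ^ (1 / 4 : ℝ)) ^ 4 = L := by
    rw [← Real.rpow_natCast, ← Real.rpow_mul (by linarith)]; norm_num
  have h3 := na_pow_div_fact (a := 2 * (1 + L ^ (gam K / 2))) (by linarith) (⌈L ^ (1 / 4 : ℝ)⌉₊ + 1)
  have h4 : Real.exp (3 * (2 * (1 + L ^ (gam K / 2))) - ((⌈L ^ (1 / 4 : ℝ)⌉₊ + 1 : ℕ) : ℝ)) ≤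
      Real.exp (-(L ^ (1 / 4 : ℝ) / 2)) := by
    apply Real.exp_le_exp.2
    push_cast
    linarith
  have h5 : L * (1 + L) ≤ 512 * (L ^ (1 / 4 : ℝ) / 2) ^ 8 := by
    have : 512 * (L ^ (1 / 4 : ℝ) / 2) ^ 8 = 2 * ((L ^ (1 / 4 : ℝ)) ^ 4) ^ 2 := by ring
    rw [this, hL4]
    nlinarith
  rw [← mul_assoc]
  exact mul_le_mul h5 (h3.trans h4) (by positivity) (by positivity)

/-- `S.ev_zpow`, `ev_pow_le_zz`; `U ≤ 2 x^(1/200)` -/
theorem ev_side (K r₀ W : ℕ) : ∀ᶠ x : ℝ in atTop,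
    UU x ^ 2 ≤ ⌊x / 2⌋₊ ∧ UU x ^ 2 * ⌊zz K x⌋₊ ^ (kk x + 1) * W ≤ QQ x ∧ 1 ≤ RR x ∧ RR x ≤ UU x ∧
      ((r₀ * W : ℕ) : ℝ) ≤ zz K x ∧ 4 * Real.log x ≤ zz K x := by
  have hc : (0 : ℝ) < 1 / 1000 := by norm_num
  filter_upwards [ev_zpow K hc, (tendsto_rpow_atTop hc).eventually_ge_atTop 8,
    (tendsto_rpow_atTop hc).eventually_ge_atTop (W : ℝ), nb_log hc, ev_pow_le_zz K 2, ev_log_ge 4,
    ev_log_ge ((r₀ * W : ℕ) : ℝ), eventually_gt_atTop (1 : ℝ)] with x h1 h8 hW hLy hz hL4 hLW hx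
  have hx0 : 0 < x := by linarith
  have e : ∀ n : ℕ, x ^ ((n : ℝ) / 1000) = (x ^ (1 / 1000 : ℝ)) ^ n := fun n => by
    rw [← Real.rpow_natCast, ← Real.rpow_mul hx0.le]; congr 1; ring
  have e5 : x ^ (1 / 200 : ℝ) = (x ^ (1 / 1000 : ℝ)) ^ 5 := by rw [← e]; norm_num
  have e20 : x ^ (1 / 50 : ℝ) = (x ^ (1 / 1000 : ℝ)) ^ 20 := by rw [← e]; norm_num
  have e1000 : (x ^ (1 / 1000 : ℝ)) ^ 1000 = x := by rw [← e]; norm_num
  have hz1 := na_one_le_zz K hx.le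
  rw [Real.rpow_two] at hz
  unfold UU QQ RR kk
  rw [e5, e20]
  generalize ⌈Real.log x ^ (1 / 4 : ℝ)⌉₊ = k at *
  generalize x ^ (1 / 1000 : ℝ) = y at *
  generalize Real.log x = L at *
  have hy1 : 1 ≤ y := by linarith
  have hU : (⌈y ^ 5⌉₊ : ℝ) ≤ 2 * y ^ 5 := by
    have := (Nat.ceil_lt_add_one (by positivity : 0 ≤ y ^ 5)).le
    have : 1 ≤ y ^ 5 := one_le_pow₀ hy1
    linarith
  have hU2 : (⌈y ^ 5⌉₊ : ℝ) ^ 2 ≤ y ^ 11 / 2 := by
    calc (⌈y ^ 5⌉₊ : ℝ) ^ 2 ≤ (2 * y ^ 5) ^ 2 := pow_le_pow_left₀ (Nat.cast_nonneg _) hU 2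
      _ = 8 * y ^ 10 / 2 := by ring
      _ ≤ y * y ^ 10 / 2 := by gcongr
      _ = _ := by ring
  refine ⟨Nat.le_floor ?_, Nat.le_floor ?_, Nat.one_le_ceil_iff.2 (by positivity), Nat.ceil_mono ?_, ?_, ?_⟩
  · push_cast
    have : y ^ 11 ≤ y ^ 1000 := pow_le_pow_right₀ hy1 (by norm_num)
    linarith
  · push_cast
    have hz' : (⌊zz K x⌋₊ : ℝ) ^ (k + 1) ≤ y := by
      refine le_trans ?_ h1
      have hk0 : (0 : ℝ) ≤ k := Nat.cast_nonneg k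
      calc (⌊zz K x⌋₊ : ℝ) ^ (k + 1) ≤ zz K x ^ (k + 1) :=
            pow_le_pow_left₀ (Nat.cast_nonneg _) (Nat.floor_le (by linarith)) _
        _ ≤ _ := le_mul_of_one_le_left (by positivity) (by linarith)
    have hp : 0 ≤ y ^ 11 := by positivity
    calc _ ≤ y ^ 11 * y * y := by
          refine mul_le_mul (mul_le_mul (by linarith) hz' (by positivity) hp) hW (Nat.cast_nonneg _) ?_
          positivity
      _ = y ^ 13 := by ring
      _ ≤ y ^ 20 := pow_le_pow_right₀ hy1 (by norm_num)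
  · exact (pow_le_pow_left₀ (by linarith) hLy 4).trans (pow_le_pow_right₀ hy1 (by norm_num))
  · nlinarith
  · nlinarith

theorem mn_BII {η L y x X r U N V Q : ℝ} (hη : 0 < η) (hL : 1 ≤ L) (hy : 1 ≤ y) (hx : 0 ≤ x)
    (hX0 : 0 ≤ X) (hX : X ≤ x) (hr1 : L ^ 4 ≤ r) (hr2 : r ≤ 2 * L ^ 4) (hU : y ^ 10 ≤ U)
    (hN0 : 0 ≤ N) (hN : N ≤ y) (hLy : L ≤ y) (hV : 1 ≤ V) (hLQ : 45 * |Q| ≤ L * η) (hLη : 45 ≤ L * η)
    (hyη : 30 ≤ y * η) :
    L * ((2 * r * L + 1) * ((2 * L + 1) * (Q * (x / L ^ 12)) + L * (4 * X * V / r ^ 2 + 2 * N * X / U))) ≤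
      η * V * x := by
  have hL0 : 0 < L := by linarith
  have hy0 : 0 < y := by linarith
  have hV0 : 0 ≤ V := by linarith
  have hL4 : 1 ≤ L ^ 4 := one_le_pow₀ hL
  have hL5 : 1 ≤ L ^ 5 := one_le_pow₀ hL
  have hr : 1 ≤ r := hL4.trans hr1
  have hr0 : 0 < r := by linarith
  have hrL : 1 ≤ r * L := one_le_mul_of_one_le_of_one_le hr hL
  have hA : 2 * r * L + 1 ≤ 5 * L ^ 5 := by
    have : r * L ≤ 2 * L ^ 4 * L := mul_le_mul_of_nonneg_right hr2 hL0.le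
    nlinarith
  have hB : 2 * r * L + 1 ≤ 3 * r * L := by linarith
  have hxV : x ≤ V * x := le_mul_of_one_le_left hx hV
  have hVx : 0 ≤ V * x := by positivity
  have hQ : 0 ≤ |Q| := abs_nonneg Q
  have h1 : L * ((2 * r * L + 1) * ((2 * L + 1) * (Q * (x / L ^ 12)))) ≤ η / 3 * (V * x) := by
    calc L * ((2 * r * L + 1) * ((2 * L + 1) * (Q * (x / L ^ 12))))
        ≤ L * ((2 * r * L + 1) * ((2 * L + 1) * (|Q| * (x / L ^ 12)))) := by
          gcongr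
          exact le_abs_self Q
      _ ≤ L * ((5 * L ^ 5) * ((3 * L) * (|Q| * (x / L ^ 12)))) := by gcongr; linarith
      _ = 15 * |Q| / L ^ 5 * x := by field_simp; ring
      _ ≤ 15 * |Q| / L * (V * x) := by
          gcongr
          exact le_self_pow₀ hL (by norm_num)
      _ ≤ η / 3 * (V * x) := by
          refine mul_le_mul_of_nonneg_right ?_ hVx
          rw [div_le_iff₀ hL0]; linarith
  have h2 : L * ((2 * r * L + 1) * (L * (4 * X * V / r ^ 2))) ≤ η / 3 * (V * x) := by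
    calc L * ((2 * r * L + 1) * (L * (4 * X * V / r ^ 2)))
        ≤ L * ((3 * r * L) * (L * (4 * x * V / r ^ 2))) := by gcongr
      _ = 12 * L ^ 3 / r * (V * x) := by field_simp; ring
      _ ≤ 12 * L ^ 3 / L ^ 4 * (V * x) := by gcongr
      _ = 12 / L * (V * x) := by field_simp
      _ ≤ η / 3 * (V * x) := by
          refine mul_le_mul_of_nonneg_right ?_ hVx
          rw [div_le_iff₀ hL0]; nlinarith
  have hU0 : 0 < U := lt_of_lt_of_le (by positivity) hU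
  have h3 : L * ((2 * r * L + 1) * (L * (2 * N * X / U))) ≤ η / 3 * (V * x) := by
    calc L * ((2 * r * L + 1) * (L * (2 * N * X / U)))
        ≤ L * ((5 * L ^ 5) * (L * (2 * N * X / U))) := by gcongr
      _ ≤ y * ((5 * y ^ 5) * (y * (2 * y * x / y ^ 10))) := by gcongr
      _ = 10 / y ^ 2 * x := by field_simp; ring
      _ ≤ 10 / y * (V * x) := by
          gcongr
          exact le_self_pow₀ hy (by norm_num)
      _ ≤ η / 3 * (V * x) := by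
          refine mul_le_mul_of_nonneg_right ?_ hVx
          rw [div_le_iff₀ hy0]; linarith
  calc _ = L * ((2 * r * L + 1) * ((2 * L + 1) * (Q * (x / L ^ 12)))) +
        L * ((2 * r * L + 1) * (L * (4 * X * V / r ^ 2))) + L * ((2 * r * L + 1) * (L * (2 * N * X / U))) := by
        ring
    _ ≤ η / 3 * (V * x) + η / 3 * (V * x) + η / 3 * (V * x) := by linarith
    _ = η * V * x := by ring

/-- `L⁴ ≤ R ≤ 2L⁴`: `L (2RL+1)(2L+1) Q / L^12 ≤ 15 Q / L^5`, `L (2RL+1) L 4/R² ≤ 12 L³/R ≤ 12/L`,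
`L (2RL+1) L 2N/U ≤ 10 L^7 N / x^(1/200) → 0` -/
theorem ev_BII (K : ℕ) (Q : ℝ) {η : ℝ} (hη : 0 < η) : ∀ᶠ x : ℝ in atTop, ∀ (N V : ℝ) (X : ℕ),
    0 ≤ N → N ≤ Real.exp (((K : ℝ) + 1) * Real.log x ^ (1 / 10 : ℝ)) → 1 ≤ V → (X : ℝ) ≤ x →
    Real.log x * BII N V (Real.log x) (Q * (x / Real.log x ^ (12 : ℝ))) X (UU x) (RR x) ≤ η * V * x := by
  have hc : (0 : ℝ) < 1 / 2000 := by norm_num
  filter_upwards [nb_log hc, S.ev_exp_le ((K : ℝ) + 1) (a := 1 / 10) (by norm_num) hc,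
    (tendsto_rpow_atTop hc).eventually_ge_atTop (30 / η),
    (tendsto_rpow_atTop hc).eventually_ge_atTop 1, ev_log_ge (45 / η), ev_log_ge (45 * |Q| / η), ev_log_ge 1,
    eventually_ge_atTop (1 : ℝ)] with x hLy hNy hyη hy1 hLη hLQ hL1 hx1 N V X hN0 hN hV hX
  have hx0 : 0 < x := by linarith
  have e12 : Real.log x ^ (12 : ℝ) = Real.log x ^ 12 := by
    rw [← Real.rpow_natCast]; norm_num
  have eU : x ^ (1 / 200 : ℝ) = (x ^ (1 / 2000 : ℝ)) ^ 10 := by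
    rw [← Real.rpow_natCast, ← Real.rpow_mul hx0.le]; norm_num
  unfold BII UU RR
  rw [e12]
  refine mn_BII hη hL1 hy1 hx0.le (Nat.cast_nonneg _) hX (Nat.le_ceil _) ?_
    (eU ▸ Nat.le_ceil _) hN0 (hN.trans hNy) hLy hV ?_ ?_ ?_
  · have h1 : (1 : ℝ) ≤ Real.log x ^ 4 := one_le_pow₀ hL1
    have := Nat.ceil_lt_add_one (a := Real.log x ^ 4) (by linarith)
    linarith
  · rw [div_le_iff₀ hη] at hLQ; linarith
  · rw [div_le_iff₀ hη] at hLη; linarith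
  · rw [div_le_iff₀ hη] at hyη; linarith

theorem mn_b_UU {x : ℝ} (hx : 1 ≤ x) : (UU x : ℝ) ≤ 2 * (x ^ (1 / 1000 : ℝ)) ^ 5 := by
  have e : x ^ (1 / 200 : ℝ) = (x ^ (1 / 1000 : ℝ)) ^ 5 := by
    rw [← Real.rpow_natCast, ← Real.rpow_mul (by linarith)]; norm_num
  have h1 : 1 ≤ x ^ (1 / 200 : ℝ) := Real.one_le_rpow hx (by norm_num)
  have h2 := Nat.ceil_lt_add_one (a := x ^ (1 / 200 : ℝ)) (by linarith)
  rw [UU, ← e]; linarith

theorem mn_b_x {x : ℝ} (hx : 1 ≤ x) : x ^ (97 / 100 : ℝ) * (x ^ (1 / 1000 : ℝ)) ^ 30 = x := by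
  rw [← Real.rpow_natCast, ← Real.rpow_mul (by linarith), ← Real.rpow_add (by linarith)]; norm_num

/-- `N, L, sB ≤ x^(1/1000)` (`S.ev_exp_le`, `S.ev_zpow`), `U² ≤ 4 x^(1/100)`, `E = C x^(97/100)`; `L³ / z → 0`
(`ev_pow_le_zz`), `ev_sT2` -/
theorem ev_BI (K : ℕ) {C Λ₀ η : ℝ} (hC : 0 ≤ C) (hΛ : 0 ≤ Λ₀) (hη : 0 < η) : ∀ᶠ x : ℝ in atTop, ∀ (N V : ℝ) (X : ℕ),
    0 ≤ N → N ≤ Real.exp (((K : ℝ) + 1) * Real.log x ^ (1 / 10 : ℝ)) → 1 ≤ V → (X : ℝ) ≤ x →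
    BI K N V (Real.log x) (zz K x) (C * x ^ (97 / 100 : ℝ)) Λ₀ X (UU x) (kk x) ≤ η * V * x := by
  have hc : (0 : ℝ) < 1 / 1000 := by norm_num
  filter_upwards [nb_log hc, S.ev_exp_le ((K : ℝ) + 1) (a := 1 / 10) (by norm_num) hc,
    (tendsto_rpow_atTop hc).eventually_ge_atTop (36 * (C + 1 + Λ₀) / η), ev_zpow K hc,
    ev_sT2 K (η := η / (9 * (4 + 2 * Λ₀))) (by positivity), ev_pow_le_zz K 4,
    Real.tendsto_log_atTop.eventually_ge_atTop (18 * (4 + Λ₀ * (K + 1)) / η),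
    Real.tendsto_log_atTop.eventually_ge_atTop 1, eventually_ge_atTop (1 : ℝ)]
    with x hLy hNy hyη hz hT hzL hLη hL hx N V X hN0 hN hV hX
  have hU := mn_b_UU hx
  have hxw := mn_b_x hx
  have hy : 1 ≤ x ^ (1 / 1000 : ℝ) := Real.one_le_rpow hx hc.le
  have hw : 1 ≤ x ^ (97 / 100 : ℝ) := Real.one_le_rpow hx (by norm_num)
  have hz1 := na_one_le_zz K hx
  have hB : sB (zz K x) (kk x) ≤ x ^ (1 / 1000 : ℝ) := hz
  have hB0 := sB_nonneg (z := zz K x) (by linarith) (kk x)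
  have hT0 := sT2_nonneg hz1 (kk x)
  have hN' := hN.trans hNy
  rw [div_le_iff₀ hη] at hyη hLη
  rw [le_div_iff₀ (by positivity)] at hT
  rw [show (4 : ℝ) = (4 : ℕ) by norm_num, Real.rpow_natCast] at hzL
  have hVx : x ≤ V * x := le_mul_of_one_le_left (by linarith) hV
  unfold BI
  generalize x ^ (1 / 1000 : ℝ) = y at *
  generalize x ^ (97 / 100 : ℝ) = w at *
  generalize Real.log x = L at *
  generalize sB (zz K x) (kk x) = s at *
  generalize sT2 (zz K x) (kk x) = T at *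
  generalize zz K x = z at *
  have hU0 : (0 : ℝ) ≤ UU x := Nat.cast_nonneg _
  have hX0 : (0 : ℝ) ≤ X := Nat.cast_nonneg _
  have hL0 : 0 < L := by linarith
  have h1 : 3 * L * ((UU x : ℝ) ^ 2 * (N * (s * (C * w + 1 + Λ₀)))) ≤ η / 3 * (V * x) := by
    calc _ ≤ 3 * y * ((2 * y ^ 5) ^ 2 * (y * (y * ((C + 1 + Λ₀) * w)))) := by
          gcongr
          nlinarith
      _ = 12 * (C + 1 + Λ₀) * (w * y ^ 13) := by ring
      _ ≤ (η / 3 * y) * (w * y ^ 29) :=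
          mul_le_mul (by linarith) (by gcongr; norm_num) (by positivity) (by positivity)
      _ = η / 3 * (w * y ^ 30) := by ring
      _ ≤ _ := by rw [hxw]; gcongr
  have h2 : 3 * L * (1 + L) * (4 * L / z + Λ₀ * ((K : ℝ) + 1) / z) ≤ η / 3 := by
    calc _ ≤ 3 * L * (2 * L) * (4 * L / L ^ 4 + Λ₀ * (((K : ℝ) + 1) * L) / L ^ 4) := by
          gcongr
          · linarith
          · exact le_mul_of_one_le_right (by positivity) hL
      _ = 6 * (4 + Λ₀ * (K + 1)) / L := by field_simp; ring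
      _ ≤ _ := by rw [div_le_iff₀ hL0]; linarith
  have h3 : 3 * L * (1 + L) * ((4 + 2 * Λ₀) * T) ≤ η / 3 := by linarith
  have h4 : X * V * (3 * L * (1 + L) * (4 * L / z + Λ₀ * ((K : ℝ) + 1) / z) +
      3 * L * (1 + L) * ((4 + 2 * Λ₀) * T)) ≤ x * V * (η / 3 + η / 3) :=
    mul_le_mul (by gcongr) (add_le_add h2 h3) (by positivity) (by positivity)
  linarith

/-- `ev_BI`, `ev_BII` (also with `N = V = 1`; `BII ≥ 0`, `1 ≤ L`) -/
theorem ev_Bnd (K : ℕ) {C Λ₀ Q η : ℝ} (hC : 0 ≤ C) (hΛ : 0 ≤ Λ₀) (hQ : 0 ≤ Q) (hη : 0 < η) :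
    ∀ᶠ x : ℝ in atTop, ∀ (N V : ℝ) (X : ℕ),
    0 ≤ N → N ≤ Real.exp (((K : ℝ) + 1) * Real.log x ^ (1 / 10 : ℝ)) → 1 ≤ V → (X : ℝ) ≤ x →
    Bnd K N V (Real.log x) (zz K x) (C * x ^ (97 / 100 : ℝ)) (Q * (x / Real.log x ^ (12 : ℝ))) Λ₀ X (UU x)
      (RR x) (kk x) ≤ η * V * x := by
  have hc : (0 : ℝ) < 1 / 1000 := by norm_num
  filter_upwards [nb_log hc, S.ev_exp_le ((K : ℝ) + 1) (a := 1 / 10) (by norm_num) hc,
    (tendsto_rpow_atTop hc).eventually_ge_atTop (8 * (1 + Λ₀) / η),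
    ev_BI K hC hΛ (η := η / 4) (by positivity), ev_BII K Q (η := η / 8) (by positivity),
    ev_BII K Q (η := η / (4 * (Λ₀ + 1))) (by positivity),
    Real.tendsto_log_atTop.eventually_ge_atTop 1, eventually_ge_atTop (1 : ℝ)]
    with x hLy hNy hyη h1 h2 h3 hL hx N V X hN0 hN hV hX
  have hU := mn_b_UU hx
  have hxw := mn_b_x hx
  have hy : 1 ≤ x ^ (1 / 1000 : ℝ) := Real.one_le_rpow hx hc.le
  have hw : 1 ≤ x ^ (97 / 100 : ℝ) := Real.one_le_rpow hx (by norm_num)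
  have hN' := hN.trans hNy
  have a1 := h1 N V X hN0 hN hV hX
  have a2 := h2 N V X hN0 hN hV hX
  have a3 := h3 1 1 X zero_le_one (Real.one_le_exp (by positivity)) le_rfl hX
  have a4 : 0 ≤ BII 1 1 (Real.log x) (Q * (x / Real.log x ^ (12 : ℝ))) X (UU x) (RR x) := by
    unfold BII; positivity
  rw [div_le_iff₀ hη] at hyη
  unfold Bnd
  generalize BII 1 1 (Real.log x) (Q * (x / Real.log x ^ (12 : ℝ))) X (UU x) (RR x) = B₁ at *
  generalize x ^ (1 / 1000 : ℝ) = y at *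
  generalize x ^ (97 / 100 : ℝ) = w at *
  generalize Real.log x = L at *
  have hU0 : (0 : ℝ) ≤ UU x := Nat.cast_nonneg _
  have b1 : (UU x : ℝ) * L * (N * L + Λ₀ * V) ≤ η / 4 * V * x := by
    have c1 : N * L ≤ y ^ 2 * V := by
      calc N * L ≤ y * y := by gcongr
        _ = y ^ 2 * 1 := by ring
        _ ≤ _ := by gcongr
    have c2 : Λ₀ * V ≤ Λ₀ * (y ^ 2 * V) :=
      mul_le_mul_of_nonneg_left (le_mul_of_one_le_left (by linarith) (one_le_pow₀ hy)) hΛ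
    calc _ ≤ (2 * y ^ 5) * y * (y ^ 2 * V + Λ₀ * (y ^ 2 * V)) := by gcongr
      _ = 2 * (1 + Λ₀) * V * (1 * y ^ 8) := by ring
      _ ≤ (η / 4 * y) * V * (w * y ^ 29) :=
          mul_le_mul (mul_le_mul_of_nonneg_right (by linarith) (by linarith)) (by gcongr; norm_num)
            (by positivity) (by positivity)
      _ = η / 4 * V * (w * y ^ 30) := by ring
      _ = _ := by rw [hxw]
  have b2 : Λ₀ * V * B₁ ≤ η / 4 * V * x := by
    calc Λ₀ * V * B₁ ≤ (Λ₀ + 1) * V * (L * B₁) := by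
          gcongr
          · linarith
          · exact le_mul_of_one_le_left a4 hL
      _ ≤ (Λ₀ + 1) * V * (η / (4 * (Λ₀ + 1)) * 1 * x) := by gcongr
      _ = _ := by field_simp
  linarith

/-- `StAP` with `ε = 1`: `B^(19/20) q ≤ x^(19/20) x^(1/50)`; `B = 0` is trivial -/
theorem hypAP (hAP : StAP) : ∃ C : ℝ, 0 < C ∧ ∀ (x : ℝ) (X : ℕ), 1 ≤ x → (X : ℝ) ≤ x →
    HypAP X (QQ x) (C * x ^ (97 / 100 : ℝ)) := by
  obtain ⟨C, hC, h⟩ := hAP 1 one_pos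
  refine ⟨C, hC, fun x X hx hX q a B hq hQ hc hB => ?_⟩
  have hx0 : 0 < x := by linarith
  rcases Nat.eq_zero_or_pos B with rfl | hB0
  · simp only [zero_lt_one, Icc_eq_empty_of_lt, filter_empty, sum_empty, Nat.cast_zero, zero_div,
      sub_zero, abs_zero]
    positivity
  refine (h q a B hq hc hB0).trans ?_
  have h1 : (B : ℝ) ≤ x := (Nat.cast_le.2 hB).trans hX
  have h2 : (q : ℝ) ≤ x ^ (1 / 50 : ℝ) := (Nat.cast_le.2 hQ).trans (Nat.floor_le (by positivity))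
  rw [Real.rpow_one]
  calc _ ≤ C * x ^ (19 / 20 : ℝ) * x ^ (1 / 50 : ℝ) := by gcongr
    _ = _ := by rw [mul_assoc, ← Real.rpow_add hx0]; norm_num

/-- `StAP` with `q = 1` at `⌊x⌋₊` and `⌊x/2⌋₊`, `S.nonrough_le`, `z L ≤ x^(1/2)` -/
theorem ev_psi (hAP : StAP) (K : ℕ) : ∀ᶠ x : ℝ in atTop,
    x / 4 ≤ ∑ y ∈ Ioc ⌊x / 2⌋₊ ⌊x⌋₊, ArithmeticFunction.vonMangoldt y * rg (zz K x) y := by
  obtain ⟨C, hC, h⟩ := hAP 1 one_pos
  have hψ : ∀ X : ℕ, 1 ≤ X → |∑ n ∈ Icc 1 X, ArithmeticFunction.vonMangoldt n - (X : ℝ)| ≤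
      C * (X : ℝ) ^ (19 / 20 : ℝ) := fun X hX => by
    simpa [Nat.modEq_one] using h 1 0 X le_rfl (by simp) hX
  have hc : (0 : ℝ) < 1 / 4 := by norm_num
  filter_upwards [nb_log hc, S.ev_exp_le 1 (a := gam K / 2) ((na_gam_le K).trans_lt (by norm_num)) hc,
    (tendsto_rpow_atTop (by norm_num : (0 : ℝ) < 1 / 20)).eventually_ge_atTop (8 * (C + 1)),
    eventually_ge_atTop (2 : ℝ)] with x hL hz hy hx
  rw [one_mul] at hz
  have hx0 : 0 < x := by linarith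
  have hz0 : 0 ≤ zz K x := (Real.exp_pos _).le
  have h1 : 1 ≤ ⌊x / 2⌋₊ := Nat.le_floor (by push_cast; linarith)
  have h2 : ⌊x / 2⌋₊ ≤ ⌊x⌋₊ := Nat.floor_mono (by linarith)
  have h3 : (⌊x⌋₊ : ℝ) ≤ x := Nat.floor_le hx0.le
  have h4 : (⌊x / 2⌋₊ : ℝ) ≤ x / 2 := Nat.floor_le (by linarith)
  have h5 := Nat.lt_floor_add_one x
  have a1 := (abs_le.1 (hψ _ (h1.trans h2))).1
  have a2 := (abs_le.1 (hψ _ h1)).2
  have a3 := nonrough_le hz0 ⌊x⌋₊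
  have b1 : (⌊x⌋₊ : ℝ) ^ (19 / 20 : ℝ) ≤ x ^ (19 / 20 : ℝ) := by gcongr
  have b2 : (⌊x / 2⌋₊ : ℝ) ^ (19 / 20 : ℝ) ≤ x ^ (19 / 20 : ℝ) := by gcongr; linarith
  have b3 : zz K x * Real.log ⌊x⌋₊ ≤ x ^ (19 / 20 : ℝ) := by
    have : Real.log ⌊x⌋₊ ≤ Real.log x := Real.log_le_log (by exact_mod_cast h1.trans h2) h3
    calc _ ≤ x ^ (1 / 4 : ℝ) * x ^ (1 / 4 : ℝ) :=
          mul_le_mul hz (this.trans hL) (Real.log_natCast_nonneg _) (by positivity)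
      _ ≤ _ := by
          rw [← Real.rpow_add hx0]
          exact Real.rpow_le_rpow_of_exponent_le (by linarith) (by norm_num)
  have b4 : 1 ≤ x ^ (19 / 20 : ℝ) := Real.one_le_rpow (by linarith) (by norm_num)
  have b5 : x ^ (19 / 20 : ℝ) * x ^ (1 / 20 : ℝ) = x := by rw [← Real.rpow_add hx0]; norm_num
  have b6 := mul_le_mul_of_nonneg_left hy (by linarith : 0 ≤ x ^ (19 / 20 : ℝ))
  have c1 : ∑ y ∈ Ioc ⌊x / 2⌋₊ ⌊x⌋₊, ArithmeticFunction.vonMangoldt y * (1 - rg (zz K x) y) ≤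
      ∑ y ∈ Icc 1 ⌊x⌋₊, ArithmeticFunction.vonMangoldt y * (1 - rg (zz K x) y) :=
    sum_le_sum_of_subset_of_nonneg (fun y hy => mem_Icc.2 (by rw [mem_Ioc] at hy; omega)) fun y _ _ =>
      mul_nonneg ArithmeticFunction.vonMangoldt_nonneg (sub_nonneg.2 (rg_le_one _ _))
  have c2 := sum_Ioc_consecutive (fun y => (ArithmeticFunction.vonMangoldt y : ℝ)) (Nat.zero_le _) h2
  rw [← Icc_add_one_left_eq_Ioc 0, ← Icc_add_one_left_eq_Ioc 0, zero_add] at c2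
  simp only [mul_sub, mul_one, sum_sub_distrib] at c1 a3
  nlinarith [mul_le_mul_of_nonneg_left b1 hC.le, mul_le_mul_of_nonneg_left b2 hC.le]

end

end Crest.Agent.R27.M
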