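import Crest.Agent.R27.M.Defs
import Crest.Agent.R26.Z.Rough

/-! Row 27, block M: Siegel–Walfisz in a fixed class, the type II inputs.  Prefix for helper lemmas: `ms_`. -/

set_option autoImplicit false

namespace Crest.Agent.R27.M

open Finset Filter Crest.Agent.R26 Crest.Agent.R26.S
open scoped Classical

noncomputable section

theorem ms_lift {Q q : ℕ} (ψ : DirichletCharacter ℂ Q) (χ : DirichletCharacter ℂ q) :
    ∃ χ' : DirichletCharacter ℂ (Q * q), ∀ n : ℕ,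
      χ' (n : ZMod (Q * q)) = ψ (n : ZMod Q) * χ (n : ZMod q) := by
  refine ⟨DirichletCharacter.changeLevel (dvd_mul_right Q q) ψ *
    DirichletCharacter.changeLevel (dvd_mul_left q Q) χ, fun n => ?_⟩
  rw [← Int.cast_natCast (R := ZMod (Q * q)), ← Int.cast_natCast (R := ZMod Q),
    ← Int.cast_natCast (R := ZMod q)]
  by_cases h : IsCoprime (n : ℤ) ((Q * q : ℕ) : ℤ)
  · rw [MulChar.mul_apply, DirichletCharacter.changeLevel_eq_cast_of_dvd' _ _ h,
      DirichletCharacter.changeLevel_eq_cast_of_dvd' _ _ h]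
  · rw [(DirichletCharacter.apply_eq_zero_iff _ _).2 h]
    rw [Nat.cast_mul, IsCoprime.mul_right_iff, not_and_or] at h
    rcases h with h | h
    · rw [(DirichletCharacter.apply_eq_zero_iff ψ _).2 h, zero_mul]
    · rw [(DirichletCharacter.apply_eq_zero_iff χ _).2 h, mul_zero]

/-- as `Z.stSW_of` with `f n = ψ n * χ n * nit n t`: for every `n`, `ψ n * χ n` is the value of the product of the two
characters lifted to level `q Q` (`DirichletCharacter.changeLevel`; both sides vanish when `n` is not coprime to `q Q`),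
`q Q (|t| + 2) ≤ x^4` eventually; `Z.rough_le`, `Z.asym` -/
theorem sw_twist (h : StZmu) (K : ℕ) {δ : ℝ} (hδ : 0 < δ) {Q : ℕ} (hQ : 1 ≤ Q) : ∀ᶠ x : ℝ in atTop,
    ∀ M M' : ℕ, x ^ δ ≤ M → (M : ℝ) ≤ x → ∀ (ψ : DirichletCharacter ℂ Q) (q : ℕ) (χ : DirichletCharacter ℂ q)
      (t : ℝ), 1 ≤ q → (q : ℝ) ≤ zz K x → |t| ≤ x ^ 2 →
      ‖∑ m ∈ Ioc M (2 * M), (muR (zz K x) M' m : ℂ) * (ψ (m : ZMod Q) * χ (m : ZMod q)) * R8.nit m t‖ ≤
        M * Real.exp (-(Real.log x ^ (1 - 3 * gam K / 4))) := by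
  obtain ⟨C, hC, h⟩ := h (δ / 320) (by positivity)
  filter_upwards [Z.asym K hδ C, eventually_ge_atTop (2 * (Q : ℝ))] with x ⟨hx, hz, hzx, hY⟩ hxQ
    M M' hM hMx ψ q χ₀ t hq hqz ht
  obtain ⟨χ, hχ⟩ := ms_lift ψ χ₀
  simp only [← hχ]
  have hx0 : 0 < x := by linarith
  have hM1 : 1 ≤ M := Nat.one_le_cast.1 ((Real.one_le_rpow (by linarith) hδ.le).trans hM)
  have hqt : (((Q * q : ℕ) : ℝ) * (|t| + 2)) ^ (δ / 320) ≤ x ^ (δ / 80) := by
    have a1 : ((Q * q : ℕ) : ℝ) * (|t| + 2) ≤ x ^ 4 :=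
      calc _ = (2 * (Q : ℝ)) * q * ((|t| + 2) / 2) := by push_cast; ring
        _ ≤ x * x * x ^ 2 := by
            have : (|t| + 2) / 2 ≤ x ^ 2 := by nlinarith
            have := hqz.trans hzx
            gcongr
        _ = _ := by ring
    refine (Real.rpow_le_rpow (by positivity) a1 (by positivity)).trans_eq ?_
    rw [← Real.rpow_natCast, ← Real.rpow_mul hx0.le]
    congr 1
    push_cast
    ring
  have key : ∀ Y : ℕ, M ≤ Y → Y ≤ 2 * M →
      ‖∑ m ∈ Icc 1 Y, (if Rgh (zz K x) m then ((ArithmeticFunction.moebius m : ℤ) : ℂ) else 0) *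
        (χ (m : ZMod (Q * q)) * R8.nit m t)‖ ≤
        Y * (Real.exp (-(Real.log x ^ (1 - 3 * gam K / 4))) / 3) := fun Y h1 h2 => by
    refine (Z.rough_le (T := C * x ^ (δ / 80)) hz (fun n => χ (n : ZMod (Q * q)) * R8.nit n t)
      (fun m n hm hn => ?_) (fun n => ?_) (fun X hX => ?_) (hM1.trans h1)).trans
      (mul_le_mul_of_nonneg_left (hY Y (hM.trans (Nat.cast_le.2 h1)) ?_) (Nat.cast_nonneg _))
    · rw [Z.zrc_nit_mul (by omega) (by omega), Nat.cast_mul, map_mul]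
      ring
    · rw [norm_mul, Z.zrc_norm_nit, mul_one]
      exact χ.norm_le_one _
    · simp only [← mul_assoc]
      refine (h (Q * q) χ t X (Nat.mul_pos hQ hq) hX).trans ?_
      rw [mul_right_comm]
      gcongr
    · have : (Y : ℝ) ≤ 2 * M := by exact_mod_cast h2
      linarith
  have e : ∑ m ∈ Ioc M (2 * M), (muR (zz K x) M' m : ℂ) * χ (m : ZMod (Q * q)) * R8.nit m t =
      ∑ m ∈ Ioc M (2 * M), (if m ≤ M' then
        (if Rgh (zz K x) m then ((ArithmeticFunction.moebius m : ℤ) : ℂ) else 0) *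
          (χ (m : ZMod (Q * q)) * R8.nit m t) else 0) := by
    refine sum_congr rfl fun m _ => ?_
    unfold muR
    by_cases a1 : Rgh (zz K x) m <;> by_cases a2 : m ≤ M' <;> simp [a1, a2, mul_assoc]
  rw [e, Z.zrc_sum]
  have k1 := key (max M (min M' (2 * M))) (le_max_left _ _) (by omega)
  have k2 := key M le_rfl (by omega)
  have a3 : ((max M (min M' (2 * M)) : ℕ) : ℝ) ≤ 2 * M := by
    exact_mod_cast (by omega : max M (min M' (2 * M)) ≤ 2 * M)
  have k3 := mul_le_mul_of_nonneg_right a3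
    (by positivity : 0 ≤ Real.exp (-(Real.log x ^ (1 - 3 * gam K / 4))) / 3)
  refine (norm_sub_le _ _).trans ?_
  linarith

/-- orthogonality `DirichletCharacter.sum_char_inv_mul_char_eq`, `sw_twist`, the number of characters is `φ(Q)`
(`DirichletCharacter.card_eq_totient_of_hasEnoughRootsOfUnity`) -/
theorem sw_cls (h : StZmu) (K : ℕ) {δ : ℝ} (hδ : 0 < δ) {Q : ℕ} (hQ : 1 ≤ Q) : ∀ᶠ x : ℝ in atTop,
    ∀ M M' c₁ : ℕ, x ^ δ ≤ M → (M : ℝ) ≤ x → Nat.Coprime c₁ Q →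
      SW K x M fun m => if m ≡ c₁ [MOD Q] then muR (zz K x) M' m else 0 := by
  filter_upwards [sw_twist h K hδ hQ] with x hx M M' c₁ hM hMx hc q χ t hq hqz ht
  have : NeZero Q := ⟨by omega⟩
  have hu : IsUnit (c₁ : ZMod Q) := (ZMod.isUnit_iff_coprime c₁ Q).2 hc
  have hφ : 0 < Nat.totient Q := Nat.totient_pos.2 hQ
  have hφ' : (Nat.totient Q : ℂ) ≠ 0 := by exact_mod_cast hφ.ne'
  have hφ'' : (0 : ℝ) < Nat.totient Q := by exact_mod_cast hφ
  have e : (Nat.totient Q : ℂ) * ∑ m ∈ Ioc M (2 * M),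
      (((if m ≡ c₁ [MOD Q] then muR (zz K x) M' m else 0 : ℝ)) : ℂ) * χ (m : ZMod q) * R8.nit m t =
      ∑ ψ : DirichletCharacter ℂ Q, ψ (c₁ : ZMod Q)⁻¹ * ∑ m ∈ Ioc M (2 * M),
        (muR (zz K x) M' m : ℂ) * (ψ (m : ZMod Q) * χ (m : ZMod q)) * R8.nit m t := by
    simp only [mul_sum]
    rw [sum_comm]
    refine sum_congr rfl fun m _ => ?_
    have h1 := DirichletCharacter.sum_char_inv_mul_char_eq ℂ hu (m : ZMod Q)
    have h2 : ∑ ψ : DirichletCharacter ℂ Q, ψ (c₁ : ZMod Q)⁻¹ *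
        ((muR (zz K x) M' m : ℂ) * (ψ (m : ZMod Q) * χ (m : ZMod q)) * R8.nit m t) =
        (∑ ψ : DirichletCharacter ℂ Q, ψ (c₁ : ZMod Q)⁻¹ * ψ (m : ZMod Q)) *
          ((muR (zz K x) M' m : ℂ) * χ (m : ZMod q) * R8.nit m t) := by
      rw [sum_mul]
      exact sum_congr rfl fun ψ _ => by ring
    rw [h2, h1]
    by_cases h3 : m ≡ c₁ [MOD Q]
    · rw [if_pos h3, if_pos ((ZMod.natCast_eq_natCast_iff _ _ _).2 h3.symm)]
    · rw [if_neg h3, if_neg fun h4 => h3 ((ZMod.natCast_eq_natCast_iff _ _ _).1 h4).symm]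
      simp
  have h4 := congrArg norm e
  rw [norm_mul, Complex.norm_natCast] at h4
  refine le_of_mul_le_mul_left (h4.trans_le ((norm_sum_le _ _).trans ?_)) hφ''
  refine (sum_le_card_nsmul _ _ (M * Real.exp (-(Real.log x ^ (1 - 3 * gam K / 4)))) fun ψ _ => ?_).trans
    (le_of_eq ?_)
  · rw [norm_mul]
    exact (mul_le_of_le_one_left (norm_nonneg _) (ψ.norm_le_one _)).trans
      (hx M M' hM hMx ψ q χ t hq hqz ht)
  · rw [card_univ, ← Nat.card_eq_fintype_card,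
      DirichletCharacter.card_eq_totient_of_hasEnoughRootsOfUnity, nsmul_eq_mul]

/-- `SW` with `q = 1`, `t = 0`; the double sum is a product; `L · exp (-L^(1-3γ/4)) ≤ 1 / L^12` -/
theorem hypW_one (h : StZmu) (K : ℕ) : ∀ᶠ x : ℝ in atTop, ∀ X : ℕ, (X : ℝ) ≤ x →
    HypW (fun _ => 1) (zz K x) (Real.log x) X (UU x) (x / Real.log x ^ (12 : ℝ)) := by
  have hγ : 0 < 1 - 3 * gam K / 4 := by linarith [(Z.zrc_gam K).2]
  filter_upwards [Z.stSW_of h K (1 / 200) (by norm_num), W.ev_log_le_exp 1 13 hγ, W.ev_one_le_log,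
    eventually_ge_atTop 1] with x hSW h13 hL hx X hX M M' N β hM hN hMN hβ
  have hx0 : 0 < x := by linarith
  have hL0 : 0 < Real.log x := by linarith
  have hU : x ^ (1 / 200 : ℝ) ≤ UU x := Nat.le_ceil _
  have hN1 : 1 ≤ N := le_trans (Nat.ceil_pos.2 (by positivity)) hN
  have hMN' : (M : ℝ) * N ≤ x := le_trans (by exact_mod_cast hMN) hX
  have hMx : (M : ℝ) ≤ x :=
    le_trans (by exact_mod_cast (Nat.le_mul_of_pos_right M hN1).trans hMN) hX
  have h1 := hSW M M' (hU.trans (by exact_mod_cast hM)) hMx 1 1 0 le_rfl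
    (by simpa using na_one_le_zz K hx) (by simp only [abs_zero]; positivity)
  have e1 : ∑ m ∈ Ioc M (2 * M), (muR (zz K x) M' m : ℂ) *
      (1 : DirichletCharacter ℂ 1) (m : ZMod 1) * R8.nit m 0 =
      ((∑ m ∈ Ioc M (2 * M), muR (zz K x) M' m : ℝ) : ℂ) := by
    push_cast
    refine sum_congr rfl fun m _ => ?_
    rw [MulChar.one_apply (isUnit_of_subsingleton _)]
    simp [R8.nit]
  rw [e1, Complex.norm_real, Real.norm_eq_abs] at h1
  have h2 : |∑ n ∈ Ioc N (2 * N), β n| ≤ N * Real.log x := by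
    refine (abs_sum_le_sum_abs _ _).trans ((sum_le_card_nsmul _ _ _ fun n _ => hβ.1 n).trans (le_of_eq ?_))
    rw [Nat.card_Ioc, nsmul_eq_mul, show 2 * N - N = N by omega]
  simp only [mul_one]
  rw [← sum_mul_sum, abs_mul]
  rw [one_mul] at h13
  have e2 : Real.log x ^ (12 : ℝ) = Real.log x ^ 12 := by exact_mod_cast Real.rpow_natCast (Real.log x) 12
  calc _ ≤ M * Real.exp (-(Real.log x ^ (1 - 3 * gam K / 4))) * (N * Real.log x) := by gcongr
    _ = M * N * (Real.log x / Real.exp (Real.log x ^ (1 - 3 * gam K / 4))) := by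
        rw [Real.exp_neg]; ring
    _ ≤ x * (Real.log x / Real.log x ^ 13) := by gcongr
    _ = _ := by rw [e2]; field_simp

/-- for `y ≥ 1`; write `y - 1 = r₀ D n` (`Nat.ModEq.mul_left_cancel'`, `Nat.div_div_eq_div_mul`) -/
theorem a1_eq {r₀ W c D y : ℕ} (hr : 1 ≤ r₀) (hD : 1 ≤ D) (hy : 1 ≤ y) :
    a1 r₀ W c D y = if y ≡ r₀ * c + 1 [MOD r₀ * W] then
      w1 D (fun b => if r₀ ∣ b then ArithmeticFunction.vonMangoldt (b / r₀) else 0) y else 0 := by
  obtain ⟨t, rfl⟩ : ∃ t, y = t + 1 := ⟨y - 1, by omega⟩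
  unfold a1 w1
  rw [Nat.add_sub_cancel]
  by_cases hd : r₀ * D ∣ t
  · obtain ⟨n, rfl⟩ := hd
    have e1 : r₀ * D * n / (r₀ * D) = n := Nat.mul_div_cancel_left _ (Nat.mul_pos hr hD)
    have e2 : r₀ * D * n / D = r₀ * n := by
      rw [show r₀ * D * n = D * (r₀ * n) by ring, Nat.mul_div_cancel_left _ hD]
    have e3 : D ∣ r₀ * D * n := ⟨r₀ * n, by ring⟩
    have e4 : r₀ * D * n + 1 ≡ r₀ * c + 1 [MOD r₀ * W] ↔ D * n ≡ c [MOD W] := by
      rw [mul_assoc]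
      exact ⟨fun h => Nat.ModEq.mul_left_cancel' (by omega) (Nat.ModEq.add_right_cancel' 1 h),
        fun h => (h.mul_left' r₀).add_right 1⟩
    simp only [e1, e2, e3, e4, dvd_mul_right, true_and, if_true, Nat.mul_div_cancel_left _ hr]
  · rw [if_neg fun h => hd h.1]
    split_ifs with h1 h2
    · obtain ⟨u, rfl⟩ := h2
      rw [Nat.mul_div_cancel_left _ hD]
      refine (if_neg fun h => hd ?_).symm
      rw [mul_comm r₀]
      exact Nat.mul_dvd_mul_left _ h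
    · rfl
    · rfl

/-- `[m n ≡ y₀] = ∑_{c₁ < Q, (c₁, Q) = 1} [m ≡ c₁] [c₁ n ≡ y₀]` -/
theorem ind_split {Q y₀ : ℕ} (hQ : 1 ≤ Q) (hy : Nat.Coprime y₀ Q) (m n : ℕ) :
    (if m * n ≡ y₀ [MOD Q] then (1 : ℝ) else 0) = ∑ c₁ ∈ (range Q).filter (fun c₁ => Nat.Coprime c₁ Q),
      (if m ≡ c₁ [MOD Q] then 1 else 0) * (if c₁ * n ≡ y₀ [MOD Q] then 1 else 0) := by
  rw [Finset.sum_filter, Finset.sum_eq_single (m % Q)]
  · have e : m % Q * n ≡ m * n [MOD Q] := (Nat.mod_modEq m Q).mul_right n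
    by_cases h : m * n ≡ y₀ [MOD Q]
    · have hc : Nat.Coprime (m % Q) Q := by
        have h1 : Nat.Coprime (m % Q * n) Q := by
          rw [Nat.Coprime, (e.trans h).gcd_eq]
          exact hy
        exact Nat.Coprime.coprime_mul_right h1
      rw [if_pos h, if_pos hc, if_pos (Nat.mod_modEq m Q).symm, if_pos (e.trans h), mul_one]
    · rw [if_neg h, if_neg (fun h' => h (e.symm.trans h')), mul_zero, ite_self]
  · intro c hc hne
    have : ¬ m ≡ c [MOD Q] := fun h => hne (by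
      rw [show m % Q = c % Q from h, Nat.mod_eq_of_lt (mem_range.1 hc)])
    rw [if_neg this, zero_mul, ite_self]
  · exact fun h => absurd (mem_range.2 (Nat.mod_lt _ hQ)) h

theorem ms_b_term {r₀ W c D m n : ℕ} (h : Cl r₀ W c) (hD : 1 ≤ D) (hy : 1 ≤ m * n) {x : ℝ}
    (hx : ((m * n : ℕ) : ℝ) ≤ 4 * x) (L a b : ℝ) :
    a * b * (a1 r₀ W c D (m * n) / (2 * L)) =
      ∑ c₁ ∈ (range (r₀ * W)).filter (fun c₁ => Nat.Coprime c₁ (r₀ * W)), if D ∣ m * n - 1 then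
        (if r₀ ∣ (m * n - 1) / D ∧ (((m * n - 1) / D : ℕ) : ℝ) ≤ 4 * x then
          ArithmeticFunction.vonMangoldt ((m * n - 1) / D / r₀) / (2 * L) else 0) *
        (if m ≡ c₁ [MOD r₀ * W] then a else 0) * (if c₁ * n ≡ r₀ * c + 1 [MOD r₀ * W] then b else 0)
      else 0 := by
  have hc : Nat.Coprime (r₀ * c + 1) (r₀ * W) := Nat.Coprime.mul_right (by simp) h.hy
  have h4 : (((m * n - 1) / D : ℕ) : ℝ) ≤ 4 * x :=
    le_trans (by exact_mod_cast (Nat.div_le_self _ _).trans (Nat.sub_le _ _)) hx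
  rw [a1_eq h.hr hD hy, ← boole_mul, ind_split (Nat.mul_pos h.hr h.hW) hc, sum_mul, sum_div, mul_sum]
  refine sum_congr rfl fun c₁ _ => ?_
  simp only [w1, h4, and_true]
  split_ifs <;> ring

theorem ms_b_swap {ι κ : Type*} (S A B : Finset ι) (P : Finset κ) (f : ι → κ → ι → ι → ℝ) :
    ∑ c ∈ S, ∑ p ∈ P, ∑ m ∈ A, ∑ n ∈ B, f c p m n = ∑ m ∈ A, ∑ n ∈ B, ∑ p ∈ P, ∑ c ∈ S, f c p m n :=
  calc _ = ∑ p ∈ P, ∑ c ∈ S, ∑ m ∈ A, ∑ n ∈ B, f c p m n := sum_comm
    _ = ∑ p ∈ P, ∑ m ∈ A, ∑ n ∈ B, ∑ c ∈ S, f c p m n :=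
      sum_congr rfl fun _ _ => sum_comm.trans (sum_congr rfl fun _ _ => sum_comm)
    _ = _ := sum_comm.trans (sum_congr rfl fun _ _ => sum_comm)

theorem ms_b_coef {z B : ℝ} {α : ℕ → ℝ} (h : Coef z B α) (P : ℕ → Prop) [DecidablePred P] :
    Coef z B fun n => if P n then α n else 0 := by
  refine ⟨fun n => ?_, fun n hn => h.2 n fun h0 => hn (by simp [h0])⟩
  beta_reduce
  split_ifs
  · exact h.1 n
  · simpa using (abs_nonneg _).trans (h.1 n)

theorem ms_b_muR (z : ℝ) (M' : ℕ) : Coef z 1 (muR z M') := by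
  refine ⟨fun n => ?_, fun n hn => ?_⟩ <;> unfold muR at *
  · split_ifs
    · exact abs_moebius_le n
    · simp
  · by_contra hc
    exact hn (if_neg fun h => hc h.1)

/-- `a1_eq`, `ind_split` (`Q = r₀ W`), for each `c₁` the estimate `hII` with `α = muR · [m ≡ c₁]` (`sw_cls`, `S.coef_muR`-like),
`β · [c₁ n ≡ y₀]`, `F b = if r₀ ∣ b ∧ b ≤ 4x then Λ (b / r₀) / (2L) else 0` (`log (4x) ≤ 2L`, `m n ≤ 4 M N ≤ 4x`) -/
theorem hypW_AA (hZ : StZmu) {K : ℕ}
    (hII : ∀ᶠ x : ℝ in atTop, ∀ (M N : ℕ) (α β F : ℕ → ℝ), x ^ (1 / 200 : ℝ) ≤ M → x ^ (1 / 200 : ℝ) ≤ N →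
      (M : ℝ) * N ≤ x → Coef (zz K x) 1 α → SW K x M α → Coef (zz K x) (Real.log x) β → (∀ b, |F b| ≤ 1) →
      |∑ p ∈ Dvec (grp K x), ∑ m ∈ Ioc M (2 * M), ∑ n ∈ Ioc N (2 * N),
          if pv p ∣ m * n - 1 then F ((m * n - 1) / pv p) * α m * β n else 0| ≤ M * N / Real.log x ^ (12 : ℝ))
    {r₀ W c : ℕ} (h : Cl r₀ W c) : ∀ᶠ x : ℝ in atTop, ∀ X : ℕ, (X : ℝ) ≤ x →
    HypW (fun y => AA r₀ W c (grp K x) y / (2 * Real.log x)) (zz K x) (Real.log x) X (UU x)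
      ((r₀ * W : ℕ) * (x / Real.log x ^ (12 : ℝ))) := by
  have hQ : 1 ≤ r₀ * W := Nat.mul_pos h.hr h.hW
  filter_upwards [hII, sw_cls hZ K (δ := 1 / 200) (by norm_num) hQ, eventually_ge_atTop (4 : ℝ)]
    with x h1 h2 hx X hX M M' N β hM hN hMN hβ
  have hL : 0 < Real.log x := Real.log_pos (by linarith)
  have hU : x ^ (1 / 200 : ℝ) ≤ UU x := Nat.le_ceil _
  have hU1 : 1 ≤ UU x := by
    have := (Real.one_le_rpow (by linarith : (1 : ℝ) ≤ x) (by norm_num : (0 : ℝ) ≤ 1 / 200)).trans hU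
    exact_mod_cast this
  have hM' : x ^ (1 / 200 : ℝ) ≤ M := hU.trans (by exact_mod_cast hM)
  have hN' : x ^ (1 / 200 : ℝ) ≤ N := hU.trans (by exact_mod_cast hN)
  have hMN' : (M : ℝ) * N ≤ x := le_trans (by exact_mod_cast hMN) hX
  have hMx : (M : ℝ) ≤ x :=
    le_trans (by exact_mod_cast (Nat.le_mul_of_pos_right M (hU1.trans hN)).trans hMN) hX
  have hF : ∀ b : ℕ, |if r₀ ∣ b ∧ (b : ℝ) ≤ 4 * x then
      ArithmeticFunction.vonMangoldt (b / r₀) / (2 * Real.log x) else 0| ≤ 1 := fun b => by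
    split_ifs with hb
    · rw [abs_of_nonneg (div_nonneg ArithmeticFunction.vonMangoldt_nonneg (by linarith)),
        div_le_one (by linarith)]
      refine ArithmeticFunction.vonMangoldt_le_log.trans ?_
      rcases Nat.eq_zero_or_pos (b / r₀) with h0 | h0
      · rw [h0, Nat.cast_zero, Real.log_zero]
        linarith
      · have h3 : ((b / r₀ : ℕ) : ℝ) ≤ b := by exact_mod_cast Nat.div_le_self _ _
        rw [two_mul, ← Real.log_mul (by linarith) (by linarith)]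
        exact Real.log_le_log (by exact_mod_cast h0) (by nlinarith [hb.2])
    · simp
  have key : ∑ m ∈ Ioc M (2 * M), ∑ n ∈ Ioc N (2 * N),
      muR (zz K x) M' m * β n * (AA r₀ W c (grp K x) (m * n) / (2 * Real.log x)) =
      ∑ c₁ ∈ (range (r₀ * W)).filter (fun c₁ => Nat.Coprime c₁ (r₀ * W)), ∑ p ∈ Dvec (grp K x),
        ∑ m ∈ Ioc M (2 * M), ∑ n ∈ Ioc N (2 * N), if pv p ∣ m * n - 1 then
        (if r₀ ∣ (m * n - 1) / pv p ∧ (((m * n - 1) / pv p : ℕ) : ℝ) ≤ 4 * x then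
          ArithmeticFunction.vonMangoldt ((m * n - 1) / pv p / r₀) / (2 * Real.log x) else 0) *
        (if m ≡ c₁ [MOD r₀ * W] then muR (zz K x) M' m else 0) *
        (if c₁ * n ≡ r₀ * c + 1 [MOD r₀ * W] then β n else 0) else 0 := by
    rw [ms_b_swap]
    refine sum_congr rfl fun m hm => sum_congr rfl fun n hn => ?_
    rw [AA, sum_div, mul_sum]
    refine sum_congr rfl fun p hp => ?_
    obtain ⟨m1, m2⟩ := mem_Ioc.1 hm
    obtain ⟨n1, n2⟩ := mem_Ioc.1 hn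
    refine ms_b_term h (one_le_pv hp) (Nat.mul_pos (by omega) (by omega)) ?_ _ _ _
    have h3 : ((m * n : ℕ) : ℝ) ≤ (2 * M * (2 * N) : ℕ) := by exact_mod_cast Nat.mul_le_mul m2 n2
    push_cast at h3 ⊢
    linarith
  beta_reduce
  rw [key]
  refine (abs_sum_le_sum_abs _ _).trans ?_
  refine (sum_le_card_nsmul _ _ (x / Real.log x ^ (12 : ℝ)) fun c₁ hc => ?_).trans ?_
  · exact (h1 M N _ _ _ hM' hN' hMN' (ms_b_coef (ms_b_muR _ M') fun m => m ≡ c₁ [MOD r₀ * W])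
      (h2 M M' c₁ hM' hMx (mem_filter.1 hc).2)
      (ms_b_coef hβ fun n => c₁ * n ≡ r₀ * c + 1 [MOD r₀ * W]) hF).trans
      (div_le_div_of_nonneg_right hMN' (by positivity))
  · rw [nsmul_eq_mul]
    refine mul_le_mul_of_nonneg_right ?_ (by positivity)
    exact_mod_cast (card_filter_le _ _).trans (card_range _).le

end

end Crest.Agent.R27.M
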