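import Crest.Agent.R27.M.Defs

/-! Row 27, block M: type II for an arbitrary weight (copy and adapt `R26/S/TypeII.lean`).  Prefix for helper lemmas: `m2_`. -/

set_option autoImplicit false

namespace Crest.Agent.R27.M

open Finset Filter Crest.Agent.R26 Crest.Agent.R26.S
open scoped Classical

noncomputable section

/-- as `S.box` -/
theorem boxW {w : ℕ → ℝ} {z L E₂ : ℝ} {X U : ℕ} (hII : HypW w z L X U E₂) (hU : 1 ≤ U) (hL : Real.log X ≤ L)
    {M M' N N' : ℕ} (hM : U ≤ M) (hM' : M' ≤ 2 * M) (hN : U ≤ N) (hN' : N' ≤ 2 * N) (hMN : M * N ≤ X)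
    (hX : N' ≤ X) :
    |∑ m ∈ Ioc M M', ∑ n ∈ Ioc N N',
        (ArithmeticFunction.moebius m : ℝ) * rg z m * (bII U n * rg z n) * w (m * n)| ≤ E₂ := by
  have hL0 : 0 ≤ L := (Real.log_natCast_nonneg X).trans hL
  have h1 := hII M M' N (fun n => if n ≤ N' then bII U n * rg z n else 0) hM hN hMN
    ⟨fun n => ?_, fun n hn => ?_⟩
  · refine le_of_eq_of_le (congrArg abs ?_) h1
    symm
    rw [← sum_subset (Ioc_subset_Ioc_right hM') fun m hm hm' => ?_]
    · refine sum_congr rfl fun m hm => ?_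
      rw [← sum_subset (Ioc_subset_Ioc_right hN') fun n hn hn' => ?_]
      · refine sum_congr rfl fun n hn => ?_
        rw [if_pos (mem_Ioc.1 hn).2, muR, rg]
        by_cases h : Rgh z m
        · rw [if_pos ⟨h, (mem_Ioc.1 hm).2⟩, rg, if_pos h, mul_one]
        · rw [if_neg fun h' => h h'.1, rg, if_neg h, mul_zero]
      · rw [if_neg fun h => hn' (mem_Ioc.2 ⟨(mem_Ioc.1 hn).1, h⟩)]
        simp
    · have : muR z M' m = 0 := if_neg fun h => hm' (mem_Ioc.2 ⟨(mem_Ioc.1 hm).1, h.2⟩)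
      simp [this]
  · beta_reduce
    split_ifs with h
    · rw [abs_mul, abs_of_nonneg (bII_nonneg U n)]
      exact (mul_le_of_le_one_right (bII_nonneg U n) (abs_rg_le z n)).trans
        ((bII_le U n).trans ((ta_log_le (h.trans hX)).trans hL))
    · simpa using hL0
  · by_contra h
    exact hn (by simp [rg, h])

/-- as `S.strip` -/
theorem stripW {w : ℕ → ℝ} {z L E₂ : ℝ} {X U : ℕ} (hII : HypW w z L X U E₂) (hE : 0 ≤ E₂) (hU : 1 ≤ U)
    (hL : Real.log X ≤ L) {M M' : ℕ} (hM : U ≤ M) (hMM : M < M') (hM' : M' ≤ 2 * M) :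
    |∑ m ∈ Ioc M M', ∑ n ∈ Ioc U (X / M'),
        (ArithmeticFunction.moebius m : ℝ) * rg z m * (bII U n * rg z n) * w (m * n)| ≤ (2 * L + 1) * E₂ := by
  rw [sum_comm]
  have h1 := chain (fun n => ∑ m ∈ Ioc M M',
      (ArithmeticFunction.moebius m : ℝ) * rg z m * (bII U n * rg z n) * w (m * n))
    (X := X / M') (R := 1) hU le_rfl hE ((ta_log_le (Nat.div_le_self X M')).trans hL) fun N hN hNX => by
      rw [sum_comm]
      refine boxW hII hU hL hM hM' hN ((min_le_right _ _).trans (by simp [two_mul])) ?_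
        ((min_le_left _ _).trans (Nat.div_le_self X M'))
      calc M * N ≤ M' * (X / M') := Nat.mul_le_mul hMM.le hNX.le
        _ ≤ X := Nat.mul_div_le X M'
  simpa using h1

theorem m2_row {K : ℕ} {P : Fin (K + 1) → Finset ℕ} (hP : ∀ p ∈ Dvec P, 1 ≤ pv p) {w : ℕ → ℝ} {X : ℕ}
    (hw : ∀ y, y ≤ X → |w y| ≤ WW P (fun _ => 1) y) (z : ℝ) {L : ℝ} (U : ℕ) (hL : Real.log X ≤ L) {m a b : ℕ}
    (hm : 1 ≤ m) (hb : b ≤ X) (hmb : m * b ≤ X) {t : ℝ} (ht : ((b - a : ℕ) : ℝ) ≤ t + 1) :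
    |∑ n ∈ Ioc a b,
        (ArithmeticFunction.moebius m : ℝ) * rg z m * (bII U n * rg z n) * w (m * n)| ≤
      L * (t * Vtot P + 2 * (Dvec P).card) := by
  have hL0 : 0 ≤ L := (Real.log_natCast_nonneg X).trans hL
  have h1 : ∀ n ∈ Ioc a b,
      |(ArithmeticFunction.moebius m : ℝ) * rg z m * (bII U n * rg z n) * w (m * n)| ≤
        L * ∑ p ∈ Dvec P, if 1 ∣ n ∧ pv p ∣ m * n - 1 then (1 : ℝ) else 0 := by
    intro n hn
    obtain ⟨h2, h3⟩ := mem_Ioc.1 hn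
    have h4 : |bII U n| ≤ L := by
      rw [abs_of_nonneg (bII_nonneg U n)]
      refine (bII_le U n).trans (le_trans (Real.log_le_log ?_ ?_) hL)
      · exact_mod_cast (Nat.zero_le a).trans_lt h2
      · exact_mod_cast h3.trans hb
    have h5 : |w (m * n)| ≤ ∑ p ∈ Dvec P, if 1 ∣ n ∧ pv p ∣ m * n - 1 then (1 : ℝ) else 0 := by
      refine (hw _ ((Nat.mul_le_mul_left m h3).trans hmb)).trans (sum_le_sum fun p _ => ?_)
      simp [w1]
    rw [abs_mul, abs_mul, abs_mul, abs_mul]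
    calc _ ≤ 1 * 1 * (L * 1) * ∑ p ∈ Dvec P, if 1 ∣ n ∧ pv p ∣ m * n - 1 then (1 : ℝ) else 0 := by
          gcongr
          exacts [abs_moebius_le m, abs_rg_le z m, abs_rg_le z n]
      _ = _ := by ring
  refine (abs_sum_le_sum_abs _ _).trans ((sum_le_sum h1).trans ?_)
  rw [← mul_sum, sum_comm]
  refine mul_le_mul_of_nonneg_left ?_ hL0
  rw [Vtot_eq_sum, mul_sum, mul_comm (2 : ℝ), ← nsmul_eq_mul, ← sum_const, ← sum_add_distrib]
  refine sum_le_sum fun p hp => ?_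
  have h6 : (1 : ℝ) ≤ pv p := by exact_mod_cast hP p hp
  rw [sum_boole]
  refine (ap_count hm le_rfl (hP p hp) a b).trans ?_
  have h7 : 1 / (pv p : ℝ) ≤ 1 := by rw [div_le_one (by linarith)]; exact h6
  calc _ ≤ (t + 1) / (((1 : ℕ) : ℝ) * pv p) + 1 := by gcongr
    _ = t * (1 / pv p) + 1 / pv p + 1 := by push_cast; ring
    _ ≤ _ := by linarith

/-- as `S.boundary` (`m n ≤ X` on the range of summation) -/
theorem boundaryW {K : ℕ} {P : Fin (K + 1) → Finset ℕ} (hP : ∀ p ∈ Dvec P, 1 ≤ pv p) {w : ℕ → ℝ} {X U R : ℕ}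
    (hw : ∀ y, y ≤ X → |w y| ≤ WW P (fun _ => 1) y) (z : ℝ) {L : ℝ} (hU : 1 ≤ U) (hR : 1 ≤ R)
    (hL : Real.log X ≤ L) {M M' : ℕ} (hM : U ≤ M) (hMM : M < M') (hM' : M' ≤ 2 * M)
    (hM'' : ((M' : ℝ) - M) * R ≤ 2 * M) :
    |∑ m ∈ Ioc M M', ∑ n ∈ Ioc (max U (X / M')) (X / m),
        (ArithmeticFunction.moebius m : ℝ) * rg z m * (bII U n * rg z n) * w (m * n)| ≤
      L * (4 * X * Vtot P / (R : ℝ) ^ 2 + 2 * (Dvec P).card * X / U) := by
  have hL0 : 0 ≤ L := (Real.log_natCast_nonneg X).trans hL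
  have hV := Vtot_nonneg P
  rcases lt_or_ge X (M * U) with hX | hX
  · rw [sum_eq_zero, abs_zero]
    · positivity
    intro m hm
    rw [Ioc_eq_empty, sum_empty]
    refine not_lt.2 ((Nat.div_lt_of_lt_mul (hX.trans_le ?_)).le.trans (le_max_left _ _))
    exact Nat.mul_le_mul_right U (mem_Ioc.1 hm).1.le
  have hU0 : (0 : ℝ) < U := by exact_mod_cast hU
  have hR0 : (0 : ℝ) < R := by exact_mod_cast hR
  have hM0 : (0 : ℝ) < M := by exact_mod_cast hU.trans hM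
  have hMM' : (M : ℝ) < M' := by exact_mod_cast hMM
  have hX0 : (0 : ℝ) ≤ X := Nat.cast_nonneg X
  have h1 : ∀ m ∈ Ioc M M', |∑ n ∈ Ioc (max U (X / M')) (X / m),
      (ArithmeticFunction.moebius m : ℝ) * rg z m * (bII U n * rg z n) * w (m * n)| ≤
        L * (X * (M' - M) / M ^ 2 * Vtot P + 2 * (Dvec P).card) := by
    intro m hm
    obtain ⟨h2, h3⟩ := mem_Ioc.1 hm
    refine m2_row hP hw z U hL (by omega) (Nat.div_le_self _ _) (Nat.mul_div_le X m) ?_
    have h4 : X / M' ≤ X / m := Nat.div_le_div_left h3 (by omega)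
    have h5 : ((X / m - max U (X / M') : ℕ) : ℝ) ≤ ((X / m : ℕ) : ℝ) - (X / M' : ℕ) := by
      rw [← Nat.cast_sub h4]
      exact_mod_cast Nat.sub_le_sub_left (le_max_right _ _) _
    have h6 : ((X / m : ℕ) : ℝ) ≤ X / M :=
      Nat.cast_div_le.trans (div_le_div_of_nonneg_left hX0 hM0 (by exact_mod_cast h2.le))
    have h7 : (X : ℝ) / M' ≤ (X / M' : ℕ) + 1 := by
      rw [div_le_iff₀ (by linarith)]
      exact_mod_cast ((Nat.lt_mul_div_succ X (by omega : 0 < M')).le.trans_eq (mul_comm _ _))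
    have h8 : (X : ℝ) / M - X / M' ≤ X * (M' - M) / M ^ 2 := by
      rw [div_sub_div _ _ hM0.ne' (by linarith), mul_comm (M : ℝ) X, ← mul_sub, sq]
      have : 0 ≤ (M' : ℝ) - M := by linarith
      gcongr
    linarith
  refine (abs_sum_le_sum_abs _ _).trans ((sum_le_card_nsmul _ _ _ h1).trans ?_)
  rw [Nat.card_Ioc, nsmul_eq_mul, Nat.cast_sub hMM.le, mul_left_comm]
  refine mul_le_mul_of_nonneg_left ?_ hL0
  have h2 : ((M' : ℝ) - M) / M ≤ 2 / R := by rwa [div_le_div_iff₀ hM0 hR0]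
  have h3 : (M' : ℝ) - M ≤ X / U := by
    have a1 : (M' : ℝ) ≤ 2 * M := by exact_mod_cast hM'
    have a2 : (M : ℝ) ≤ X / U := by
      rw [le_div_iff₀ hU0]
      exact_mod_cast hX
    linarith
  have h4 : 0 ≤ ((M' : ℝ) - M) / M := div_nonneg (by linarith) hM0.le
  calc _ = X * Vtot P * (((M' : ℝ) - M) / M) ^ 2 + 2 * (Dvec P).card * ((M' : ℝ) - M) := by ring
    _ ≤ X * Vtot P * (2 / R) ^ 2 + 2 * (Dvec P).card * (X / U) := by gcongr
    _ = _ := by ring

/-- as `S.typeII` -/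
theorem typeIIW {K : ℕ} {P : Fin (K + 1) → Finset ℕ} (hP : ∀ p ∈ Dvec P, 1 ≤ pv p) {w : ℕ → ℝ} {X U R : ℕ}
    (hw : ∀ y, y ≤ X → |w y| ≤ WW P (fun _ => 1) y) {z L E₂ : ℝ} (hII : HypW w z L X U E₂) (hE : 0 ≤ E₂)
    (hR : 1 ≤ R) (hRU : R ≤ U) (hL : Real.log X ≤ L) :
    |TII z w X U| ≤ BII (Dvec P).card (Vtot P) L E₂ X U R := by
  have hL0 : 0 ≤ L := (Real.log_natCast_nonneg X).trans hL
  have hV := Vtot_nonneg P
  have hU := hR.trans hRU
  refine chain _ hU hR (by positivity) hL fun M hM hMX => ?_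
  have h1 : 1 ≤ (M + R - 1) / R := Nat.div_pos (by omega) hR
  have h2 : (M + R - 1) / R * R ≤ M + R - 1 := Nat.div_mul_le_self _ _
  have h3 : (M + R - 1) / R ≤ M := by
    refine Nat.div_le_of_le_mul ?_
    obtain ⟨r, rfl⟩ : ∃ r, R = r + 1 := ⟨R - 1, by omega⟩
    have := Nat.mul_le_mul_left r (hU.trans hM)
    rw [add_mul]
    omega
  generalize (M + R - 1) / R = q at h1 h2 h3
  set M' := min X (M + q) with hM'
  have h4 : M < M' := lt_min hMX (by omega)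
  have h5 : M' ≤ M + q := min_le_right _ _
  have h6 : ((M' : ℝ) - M) * R ≤ 2 * M := by
    have a1 : (M' : ℝ) - M ≤ q := by
      have : (M' : ℝ) ≤ M + q := by exact_mod_cast h5
      linarith
    have a2 : (q : ℝ) * R ≤ 2 * M := by exact_mod_cast (by omega : q * R ≤ 2 * M)
    exact (mul_le_mul_of_nonneg_right a1 (Nat.cast_nonneg R)).trans a2
  have h7 : ∀ (f : ℕ → ℝ), ∀ m ∈ Ioc M M', ∑ n ∈ Ioc U (X / m), f n =
      ∑ n ∈ Ioc U (X / M'), f n + ∑ n ∈ Ioc (max U (X / M')) (X / m), f n := by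
    intro f m hm
    obtain ⟨a1, a2⟩ := mem_Ioc.1 hm
    rcases le_total (X / M') U with h | h
    · rw [max_eq_left h, Ioc_eq_empty (not_lt.2 h), sum_empty, zero_add]
    · rw [max_eq_right h, sum_Ioc_consecutive f h (Nat.div_le_div_left a2 (by omega))]
  rw [sum_congr rfl fun m hm => h7 _ m hm, sum_add_distrib]
  exact (abs_add_le _ _).trans (add_le_add (stripW hII hE hU hL hM h4 (by omega))
    (boundaryW hP hw z hU hR hL hM h4 (by omega) h6))

/-- `typeIIW` with the trivial mark: `K = 0`, `P = fun _ => {1}` (`Fintype.piFinset_singleton`) -/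
theorem typeII_one {X U R : ℕ} {z L E₂ : ℝ} (hII : HypW (fun _ => 1) z L X U E₂) (hE : 0 ≤ E₂)
    (hR : 1 ≤ R) (hRU : R ≤ U) (hL : Real.log X ≤ L) : |TII z (fun _ => 1) X U| ≤ BII 1 1 L E₂ X U R := by
  have hD : Dvec (K := 0) (fun _ => ({1} : Finset ℕ)) = {fun _ => 1} := Fintype.piFinset_singleton _
  have hp : pv (K := 0) (fun _ => 1) = 1 := by simp [pv]
  have h := typeIIW (K := 0) (P := fun _ => {1}) (w := fun _ => 1) (X := X) (U := U) (R := R)
    (by rw [hD]; intro p h; rw [mem_singleton.1 h, hp]) (fun y _ => by rw [WW, hD, sum_singleton, hp]; simp [w1]) hII hE hR hRU hL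
  rw [Vtot_eq_sum, hD] at h
  simpa [hp] using h

end

end Crest.Agent.R27.M
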