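import Crest.Agent.R27.M.TypeI
import Crest.Agent.R27.M.TypeII
import Crest.Agent.R27.M.SWc
import Crest.Agent.R27.M.Num

/-! Row 27, block M: `StMain27` from `StII`, `StZmu`, `StAP`.  Prefix for helper lemmas: `mm_`. -/

set_option autoImplicit false

namespace Crest.Agent.R27

open Finset Filter Crest.Agent.R26 Crest.Agent.R26.S
open scoped Classical

namespace M

theorem mm_TII (r₀ W c : ℕ) {K : ℕ} (P : Fin (K + 1) → Finset ℕ) (z : ℝ) {L : ℝ} (hL : L ≠ 0) (X U : ℕ) :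
    TII z (ww r₀ W c P z) X U = 2 * L * TII z (fun y => AA r₀ W c P y / (2 * L)) X U -
      lam r₀ W z * Vtot P * TII z (fun _ => 1) X U := by
  unfold TII ww
  simp only [mul_sum, ← sum_sub_distrib]
  refine sum_congr rfl fun m _ => sum_congr rfl fun n _ => ?_
  field_simp

theorem mm_fin {r₀ W c : ℕ} (h : Cl r₀ W c) {K : ℕ} {P : Fin (K + 1) → Finset ℕ} {X Q U R k : ℕ}
    {E E₂ z L Λ₀ : ℝ} (hP : ∀ g, ∀ p ∈ P g, p.Prime ∧ z < p) (hAP : HypAP X Q E) (hE : 0 ≤ E) (hz : 1 ≤ z)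
    (hQz : ((r₀ * W : ℕ) : ℝ) ≤ z) (hLz : 4 * L ≤ z) (hΛ : lam r₀ W z ≤ Λ₀) (hU : U ^ 2 ≤ X)
    (hQ : U ^ 2 * ⌊z⌋₊ ^ (k + 1) * W ≤ Q) (hL : Real.log X ≤ L) (hL1 : 1 ≤ L)
    (h1 : HypW (fun y => AA r₀ W c P y / (2 * L)) z L X U E₂) (h2 : HypW (fun _ => 1) z L X U E₂)
    (hE₂ : 0 ≤ E₂) (hR : 1 ≤ R) (hRU : R ≤ U) :
    |∑ y ∈ Icc 1 X, ArithmeticFunction.vonMangoldt y * (rg z y * ww r₀ W c P z y)| ≤
      Bnd K (Dvec P).card (Vtot P) L z E E₂ Λ₀ X U R k := by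
  have hΛ0 : ∀ y, 0 ≤ ArithmeticFunction.vonMangoldt y := fun y => ArithmeticFunction.vonMangoldt_nonneg
  have hU1 : 1 ≤ U := hR.trans hRU
  have hUX : U ≤ X := le_trans (by nlinarith) hU
  have hlog : ∀ y : ℕ, y ≤ X → Real.log y ≤ L := by
    intro y hy
    rcases Nat.eq_zero_or_pos y with rfl | hy0
    · simp; linarith
    · exact (Real.log_le_log (by exact_mod_cast hy0) (by exact_mod_cast hy)).trans hL
  have hl0 : 0 ≤ lam r₀ W z := le_trans (by positivity) (lam_bd h z).1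
  have hV := Vtot_nonneg P
  have hpv : ∀ p ∈ Dvec P, 1 ≤ pv p := fun p hp =>
    Finset.one_le_prod' fun g _ => (hP g _ (Fintype.mem_piFinset.1 hp g)).1.one_le
  have hWW : ∀ y, WW P (fun _ => 1) y ≤ (Dvec P).card := fun y =>
    (le_abs_self _).trans (abs_WW_le P (fun _ => by simp) y)
  have hlV : lam r₀ W z * Vtot P ≤ Λ₀ * Vtot P := mul_le_mul_of_nonneg_right hΛ hV
  have hlV0 : 0 ≤ lam r₀ W z * Vtot P := mul_nonneg hl0 hV
  have hw : ∀ y, y ≤ X → |ww r₀ W c P z y| ≤ (Dvec P).card * L + Λ₀ * Vtot P := by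
    intro y hy
    have a1 := AA_nonneg r₀ W c P y
    have a2 := (AA_le r₀ W c P (hlog y hy)).trans (mul_le_mul_of_nonneg_left (hWW y) (by linarith))
    have a3 : (0 : ℝ) ≤ L * (Dvec P).card := by positivity
    unfold ww
    rw [abs_le]
    constructor <;> linarith
  have b2 : |∑ y ∈ Icc 1 U, ArithmeticFunction.vonMangoldt y * (rg z y * ww r₀ W c P z y)| ≤
      U * L * ((Dvec P).card * L + Λ₀ * Vtot P) := by
    refine (abs_sum_le_sum_abs _ _).trans ?_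
    have h0 : (0 : ℝ) ≤ (Dvec P).card * L + Λ₀ * Vtot P := (abs_nonneg _).trans (hw 0 (Nat.zero_le _))
    calc ∑ y ∈ Icc 1 U, |ArithmeticFunction.vonMangoldt y * (rg z y * ww r₀ W c P z y)|
        ≤ ∑ y ∈ Icc 1 U, ArithmeticFunction.vonMangoldt y * ((Dvec P).card * L + Λ₀ * Vtot P) := by
          refine sum_le_sum fun y hy => ?_
          rw [abs_mul, abs_mul, abs_of_nonneg (hΛ0 y)]
          refine mul_le_mul_of_nonneg_left ?_ (hΛ0 y)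
          exact (mul_le_of_le_one_left (abs_nonneg _) (abs_rg_le z y)).trans
            (hw y ((mem_Icc.1 hy).2.trans hUX))
      _ ≤ _ := by
          rw [← sum_mul]
          exact mul_le_mul_of_nonneg_right (sum_small_le (hlog U hUX)) h0
  have b3 := typeI h hP hAP hE hz hQz hLz hΛ hU hQ hL
  have b4 := typeIIW hpv (w := fun y => AA r₀ W c P y / (2 * L)) (fun y hy => by
    have a1 := AA_nonneg r₀ W c P y
    have a2 := AA_le r₀ W c P (hlog y hy)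
    have a3 : 0 ≤ L * WW P (fun _ => 1) y := a1.trans a2
    rw [abs_of_nonneg (by positivity), div_le_iff₀ (by positivity)]
    linarith) h1 hE₂ hR hRU hL
  have b5 := typeII_one h2 hE₂ hR hRU hL
  have b6 : |2 * L * TII z (fun y => AA r₀ W c P y / (2 * L)) X U| ≤
      2 * L * BII (Dvec P).card (Vtot P) L E₂ X U R := by
    rw [abs_mul, abs_of_nonneg (by positivity : (0 : ℝ) ≤ 2 * L)]
    exact mul_le_mul_of_nonneg_left b4 (by positivity)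
  have b7 : |lam r₀ W z * Vtot P * TII z (fun _ => 1) X U| ≤ Λ₀ * Vtot P * BII 1 1 L E₂ X U R := by
    rw [abs_mul, abs_of_nonneg hlV0]
    exact mul_le_mul hlV b5 (abs_nonneg _) (hlV0.trans hlV)
  rw [vaughan z _ hU, mm_TII r₀ W c P z (by linarith : L ≠ 0)]
  unfold Bnd
  rw [abs_le] at b2 b3 b6 b7 ⊢
  constructor <;> linarith [b2.1, b2.2, b3.1, b3.2, b6.1, b6.2, b7.1, b7.2]

theorem mm_target {r₀ W c D : ℕ} (hr : 1 ≤ r₀) (hD : 1 ≤ D) {x : ℝ} (hx : 0 ≤ x) :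
    ∑ n ∈ (Icc 1 ⌊x⌋₊).filter (fun n => x / 2 < ((r₀ * D * n + 1 : ℕ) : ℝ) ∧
        ((r₀ * D * n + 1 : ℕ) : ℝ) ≤ x ∧ D * n ≡ c [MOD W]),
      ArithmeticFunction.vonMangoldt n * ArithmeticFunction.vonMangoldt (r₀ * D * n + 1) =
      ∑ y ∈ Ioc ⌊x / 2⌋₊ ⌊x⌋₊, ArithmeticFunction.vonMangoldt y * a1 r₀ W c D y := by
  have h0 : 0 < r₀ * D := Nat.mul_pos hr hD
  refine sum_of_injOn (fun n => r₀ * D * n + 1) (fun a _ b _ hab => ?_) (fun n hn => ?_)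
    (fun y hy hn => ?_) (fun n hn => ?_)
  · exact Nat.eq_of_mul_eq_mul_left h0 (Nat.succ.inj hab)
  · obtain ⟨-, a2, a3, -⟩ := mem_filter.1 (mem_coe.1 hn)
    exact mem_coe.2 (mem_Ioc.2 ⟨(Nat.floor_lt (by linarith)).2 a2, Nat.le_floor a3⟩)
  · obtain ⟨a1', a2⟩ := mem_Ioc.1 hy
    unfold a1
    split_ifs with hc
    · obtain ⟨⟨n, hn'⟩, hc⟩ := hc
      have e : (y - 1) / (r₀ * D) = n := by rw [hn', Nat.mul_div_cancel_left _ h0]
      rw [e] at hc ⊢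
      rcases Nat.eq_zero_or_pos n with rfl | hn0
      · simp
      · have ey : r₀ * D * n + 1 = y := by omega
        refine absurd ⟨n, mem_coe.2 (mem_filter.2 ⟨mem_Icc.2 ⟨hn0, ?_⟩, ?_, ?_, hc⟩), ey⟩ hn
        · have : n ≤ r₀ * D * n := Nat.le_mul_of_pos_left n h0
          omega
        · rw [ey]; exact (Nat.floor_lt (by linarith)).1 a1'
        · rw [ey]; exact (Nat.le_floor_iff hx).1 a2
    · simp
  · obtain ⟨-, -, -, a4⟩ := mem_filter.1 hn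
    have e : (r₀ * D * n + 1 - 1) / (r₀ * D) = n := by
      rw [Nat.add_sub_cancel, Nat.mul_div_cancel_left _ h0]
    unfold a1
    rw [e, if_pos ⟨by rw [Nat.add_sub_cancel]; exact dvd_mul_right _ _, a4⟩, mul_comm]

end M

open M

theorem stMain27 (hII : StII) (hZ : StZmu) (hAP : StAP) : StMain27 := by
  obtain ⟨K, hK, hII⟩ := hII 12 (by norm_num)
  refine ⟨K, hK, fun r₀ W c hW h2 hr hc hy => ?_⟩
  have h : Cl r₀ W c := ⟨hW, h2, hr, hc, hy⟩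
  obtain ⟨C, hC, hHP⟩ := hypAP hAP
  have hφ : (0 : ℝ) < Nat.totient W := by exact_mod_cast Nat.totient_pos.2 hW
  have hr' : (0 : ℝ) < r₀ := by exact_mod_cast hr
  obtain ⟨l₀, hl₀⟩ : ∃ l₀ : ℝ, l₀ = 1 / (4 * ((r₀ : ℝ) * Nat.totient W)) := ⟨_, rfl⟩
  have hl : 0 < l₀ := by rw [hl₀]; positivity
  have hQ1 : (1 : ℝ) ≤ (r₀ * W : ℕ) := by exact_mod_cast Nat.mul_pos hr hW
  refine ⟨l₀ / 8, by positivity, ?_⟩
  filter_upwards [hypW_AA hZ (hII (1 / 200) (by norm_num)) h, hypW_one hZ K, ev_side K r₀ W,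
    ev_Bnd K (Λ₀ := 2 ^ (r₀ * W)) (Q := (r₀ * W : ℕ)) (η := l₀ / 16) hC.le (by positivity) (by positivity)
      (by positivity), ev_psi hAP K, one_le_Vtot K, eventually_ge_atTop (Real.exp 1)]
    with x hA h1 ⟨s1, s2, s3, s4, s5, s6⟩ hB hψ hV hx
  have hx1 : 1 ≤ x := le_trans (by linarith [Real.add_one_le_exp 1]) hx
  have hx0 : 0 < x := by linarith
  have hL : 1 ≤ Real.log x := by
    rw [← Real.log_exp 1]; exact Real.log_le_log (Real.exp_pos 1) hx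
  have hz : 1 ≤ zz K x := Real.one_le_exp (Real.rpow_nonneg (by linarith) _)
  have hE₂ : 0 ≤ x / Real.log x ^ (12 : ℝ) := by positivity
  have hXX : ⌊x / 2⌋₊ ≤ ⌊x⌋₊ := Nat.floor_le_floor (by linarith)
  have key : ∀ X : ℕ, ⌊x / 2⌋₊ ≤ X → X ≤ ⌊x⌋₊ →
      |∑ y ∈ Ioc 0 X, ArithmeticFunction.vonMangoldt y * (rg (zz K x) y * ww r₀ W c (grp K x) (zz K x) y)| ≤
        l₀ / 16 * Vtot (grp K x) * x := by
    intro X a1 a2
    have hXx : (X : ℝ) ≤ x := (Nat.le_floor_iff hx0.le).1 a2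
    have hU := s1.trans a1
    have hX1 : 1 ≤ X := le_trans (Nat.one_le_pow _ _ (s3.trans s4)) hU
    have e : Ioc 0 X = Icc 1 X := by ext b; simp [Nat.succ_le_iff]
    rw [e]
    refine (mm_fin h (fun g p hp => ⟨(grp_mem hL hp).1, (zz_le_P1 K hL).trans_lt (grp_gt hL hp)⟩)
      (hHP x X hx1 hXx) (by positivity) hz s5 s6 (lam_bd h _).2 hU s2
      (Real.log_le_log (by exact_mod_cast hX1) hXx) hL (hA X hXx) (fun M M' N β b1 b2 b3 b4 => ?_)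
      (by positivity) s3 s4).trans (hB _ _ X (Nat.cast_nonneg _) (card_Dvec_le hL) hV hXx)
    exact (h1 X hXx M M' N β b1 b2 b3 b4).trans (le_mul_of_one_le_left hE₂ hQ1)
  have k1 := key _ le_rfl hXX
  have k2 := key _ hXX le_rfl
  have e1 := sum_Ioc_consecutive (fun y => ArithmeticFunction.vonMangoldt y *
    (rg (zz K x) y * ww r₀ W c (grp K x) (zz K x) y)) (Nat.zero_le _) hXX
  have e2 : ∑ y ∈ Ioc ⌊x / 2⌋₊ ⌊x⌋₊, ArithmeticFunction.vonMangoldt y *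
      (rg (zz K x) y * ww r₀ W c (grp K x) (zz K x) y) =
      ∑ y ∈ Ioc ⌊x / 2⌋₊ ⌊x⌋₊, ArithmeticFunction.vonMangoldt y * (rg (zz K x) y * AA r₀ W c (grp K x) y) -
        lam r₀ W (zz K x) * Vtot (grp K x) *
          ∑ y ∈ Ioc ⌊x / 2⌋₊ ⌊x⌋₊, ArithmeticFunction.vonMangoldt y * rg (zz K x) y := by
    rw [mul_sum, ← sum_sub_distrib]
    exact sum_congr rfl fun y _ => by unfold ww; ring
  have b1 : l₀ * Vtot (grp K x) * (x / 4) ≤ lam r₀ W (zz K x) * Vtot (grp K x) *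
      ∑ y ∈ Ioc ⌊x / 2⌋₊ ⌊x⌋₊, ArithmeticFunction.vonMangoldt y * rg (zz K x) y := by
    have a : l₀ ≤ lam r₀ W (zz K x) := hl₀ ▸ (lam_bd h _).1
    have b : 0 ≤ lam r₀ W (zz K x) := hl.le.trans a
    gcongr
  have b2 : ∑ y ∈ Ioc ⌊x / 2⌋₊ ⌊x⌋₊, ArithmeticFunction.vonMangoldt y * (rg (zz K x) y * AA r₀ W c (grp K x) y) ≤
      ∑ y ∈ Ioc ⌊x / 2⌋₊ ⌊x⌋₊, ArithmeticFunction.vonMangoldt y * AA r₀ W c (grp K x) y :=
    sum_le_sum fun y _ => mul_le_mul_of_nonneg_left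
      (mul_le_of_le_one_left (AA_nonneg _ _ _ _ _) (rg_le_one _ _)) ArithmeticFunction.vonMangoldt_nonneg
  rw [sum_congr rfl fun p hp => mm_target hr (one_le_pv hp) hx0.le, sum_comm]
  simp only [← mul_sum]
  rw [abs_le] at k1 k2
  change _ ≤ ∑ y ∈ Ioc ⌊x / 2⌋₊ ⌊x⌋₊, ArithmeticFunction.vonMangoldt y * AA r₀ W c (grp K x) y
  linarith [k1.1, k1.2, k2.1, k2.2]

end Crest.Agent.R27
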