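import Crest.Agent.R27.M.Sieve

/-! Row 27, block M: the weight in progressions.  Prefix for helper lemmas: `ma_`. -/

set_option autoImplicit false

namespace Crest.Agent.R27.M

open Finset Filter Crest.Agent.R26 Crest.Agent.R26.S
open scoped Classical

noncomputable section

/-- Chinese remainder theorem.  (`q = 1` and `W = 1` are allowed.)  Solve `r₀ D a₁ + 1 ≡ 0 (q)` and `D a₂ ≡ c (W)`
(`Nat.exists_mul_emod_eq_of_coprime` or units of `ZMod`), `Nat.chineseRemainder`,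
`Nat.modEq_and_modEq_iff_modEq_mul`, `Nat.ModEq.cancel_left_of_coprime`. -/
theorem a1_class {r₀ W c D q : ℕ} (hW : 1 ≤ W) (hq : 1 ≤ q) (hc : Nat.Coprime c W) (h1 : Nat.Coprime q (r₀ * D))
    (h2 : Nat.Coprime q W) (h3 : Nat.Coprime D W) :
    ∃ a : ℕ, Nat.Coprime a (q * W) ∧
      ∀ n : ℕ, (q ∣ r₀ * D * n + 1 ∧ D * n ≡ c [MOD W]) ↔ n ≡ a [MOD q * W] := by
  obtain ⟨a₁, -, k₁⟩ := Nat.exists_mul_mod_eq_of_coprime (q - 1) h1.symm (by omega)
  obtain ⟨a₂, -, k₂⟩ := Nat.exists_mul_mod_eq_of_coprime c h3 (by omega)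
  obtain ⟨a, e₁, e₂⟩ := Nat.chineseRemainder h2 a₁ a₂
  have f₁ : r₀ * D * a + 1 ≡ 0 [MOD q] := by
    have := ((e₁.mul_left (r₀ * D)).trans k₁).add_right 1
    rw [Nat.sub_add_cancel hq] at this
    exact this.trans (Nat.modEq_zero_iff_dvd.2 dvd_rfl)
  have f₂ : D * a ≡ c [MOD W] := (e₂.mul_left D).trans k₂
  refine ⟨a, Nat.Coprime.mul_right ?_ ?_, fun n => ?_⟩
  · have : Nat.Coprime a (r₀ * D * a + 1) := by simp
    exact this.coprime_dvd_right (Nat.modEq_zero_iff_dvd.1 f₁)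
  · have : Nat.Coprime (D * a) W := f₂.gcd_eq.trans hc
    exact this.coprime_mul_left
  · rw [← Nat.modEq_and_modEq_iff_modEq_mul h2, ← Nat.modEq_zero_iff_dvd]
    refine and_congr ⟨fun h => ?_, fun h => ?_⟩ ⟨fun h => ?_, fun h => ?_⟩
    · exact Nat.ModEq.cancel_left_of_coprime h1 ((h.trans f₁.symm).add_right_cancel' 1)
    · exact ((h.mul_left _).add_right 1).trans f₁
    · exact Nat.ModEq.cancel_left_of_coprime h3.symm (h.trans f₂.symm)
    · exact (h.mul_left D).trans f₂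

/-- the bijection `r ↦ n = (d r - 1) / (r₀ D)`, inverse `n ↦ (r₀ D n + 1) / d`; the term `n = 0` vanishes (`Λ 0 = 0`) -/
theorem sum_a1 {r₀ W c D d e : ℕ} (hr : 1 ≤ r₀) (hD : 1 ≤ D) (hd : 1 ≤ d) (t : ℕ) :
    ∑ r ∈ Icc 1 t, (if e ∣ r then a1 r₀ W c D (d * r) else 0) =
      ∑ n ∈ (Icc 1 ((d * t - 1) / (r₀ * D))).filter
        (fun n => d * e ∣ r₀ * D * n + 1 ∧ D * n ≡ c [MOD W]), ArithmeticFunction.vonMangoldt n := by
  have hm : 0 < r₀ * D := Nat.mul_pos hr hD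
  refine (sum_of_injOn (fun n => (r₀ * D * n + 1) / d) ?_ ?_ ?_ ?_).symm
  · intro n hn n' hn' e
    have h1 := Nat.mul_div_cancel' ((dvd_mul_right d _).trans (mem_filter.1 hn).2.1)
    have h2 := Nat.mul_div_cancel' ((dvd_mul_right d _).trans (mem_filter.1 hn').2.1)
    have e : (r₀ * D * n + 1) / d = (r₀ * D * n' + 1) / d := e
    rw [e, h2] at h1
    exact Nat.eq_of_mul_eq_mul_left hm (by omega)
  · intro n hn
    obtain ⟨h1, h2, -⟩ := mem_filter.1 hn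
    obtain ⟨h3, h4⟩ := mem_Icc.1 h1
    rw [Nat.le_div_iff_mul_le hm, mul_comm n] at h4
    have h5 : 0 < r₀ * D * n := Nat.mul_pos hm h3
    refine mem_coe.2 (mem_Icc.2 ⟨?_, Nat.div_le_of_le_mul (by omega)⟩)
    exact Nat.div_pos (Nat.le_of_dvd (by omega) ((dvd_mul_right d _).trans h2)) hd
  · intro r hr' hn
    by_contra h0
    obtain ⟨h1, h2⟩ := mem_Icc.1 hr'
    have h3 : e ∣ r := by
      by_contra h
      exact h0 (if_neg h)
    rw [if_pos h3, a1] at h0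
    have h4 : r₀ * D ∣ d * r - 1 ∧ D * ((d * r - 1) / (r₀ * D)) ≡ c [MOD W] := by
      by_contra h
      exact h0 (if_neg h)
    rw [if_pos h4] at h0
    have h5 : 0 < d * r := Nat.mul_pos hd h1
    have h6 : r₀ * D * ((d * r - 1) / (r₀ * D)) + 1 = d * r := by
      rw [Nat.mul_div_cancel' h4.1]
      omega
    refine hn ⟨(d * r - 1) / (r₀ * D), mem_coe.2 (mem_filter.2 ⟨mem_Icc.2 ⟨?_, ?_⟩, ?_, h4.2⟩), ?_⟩
    · refine Nat.pos_of_ne_zero fun h => h0 ?_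
      rw [h, ArithmeticFunction.map_zero]
    · exact Nat.div_le_div_right (Nat.sub_le_sub_right (Nat.mul_le_mul_left d h2) 1)
    · rw [h6]
      exact Nat.mul_dvd_mul_left d h3
    · show (r₀ * D * ((d * r - 1) / (r₀ * D)) + 1) / d = r
      rw [h6, Nat.mul_div_cancel_left _ hd]
  · intro n hn
    obtain ⟨-, ⟨k, hk⟩, h3⟩ := mem_filter.1 hn
    have h4 : (r₀ * D * n + 1) / d = e * k := by
      rw [hk, mul_assoc, Nat.mul_div_cancel_left _ hd]
    have h5 : d * (e * k) - 1 = r₀ * D * n := by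
      rw [← mul_assoc, ← hk, Nat.add_sub_cancel]
    show _ = if e ∣ (r₀ * D * n + 1) / d then a1 r₀ W c D (d * ((r₀ * D * n + 1) / d)) else 0
    rw [h4, if_pos (dvd_mul_right e k), a1, h5, Nat.mul_div_cancel_left _ hm,
      if_pos ⟨dvd_mul_right _ _, h3⟩]

theorem ma_b_cop {z : ℝ} {a b : ℕ} (ra : Rgh z a) (hb : ∀ p : ℕ, p.Prime → p ∣ b → (p : ℝ) ≤ z) :
    Nat.Coprime a b :=
  Nat.coprime_of_dvd fun p hp h1 h2 => absurd (ra p hp h1) (not_lt.2 (hb p hp h2))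

theorem ma_b_tot (T : Finset ℕ) (hT : ∀ p ∈ T, p.Prime) :
    (Nat.totient (∏ p ∈ T, p) : ℝ) = ∏ p ∈ T, ((p : ℝ) - 1) := by
  induction T using Finset.induction_on with
  | empty => simp
  | insert a s ha ih =>
    have h1 := hT a (mem_insert_self _ _)
    have h2 : ∀ p ∈ s, p.Prime := fun p hp => hT p (mem_insert_of_mem hp)
    have hc : Nat.Coprime a (∏ p ∈ s, p) :=
      Nat.Coprime.prod_right fun p hp =>
        (Nat.coprime_primes h1 (h2 p hp)).2 fun h => ha (h ▸ hp)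
    rw [prod_insert ha, prod_insert ha, Nat.totient_mul hc, Nat.cast_mul, ih h2, Nat.totient_prime h1,
      Nat.cast_sub h1.one_le, Nat.cast_one]

theorem ma_b_floor (n : ℕ) {m : ℕ} (hm : 1 ≤ m) :
    |((((n - 1) / m : ℕ) : ℝ)) - (n : ℝ) / m| ≤ 1 := by
  have hm' : (0 : ℝ) < m := by exact_mod_cast hm
  have h1 : (n - 1) / m * m ≤ n := (Nat.div_mul_le_self _ _).trans (Nat.sub_le _ _)
  have h2 : n ≤ ((n - 1) / m + 1) * m := by
    have := Nat.lt_div_mul_add (a := n - 1) hm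
    rw [add_mul, one_mul]
    omega
  have h1' : (((n - 1) / m : ℕ) : ℝ) ≤ (n : ℝ) / m := by
    rw [le_div_iff₀ hm']; exact_mod_cast h1
  have h2' : (n : ℝ) / m ≤ (((n - 1) / m : ℕ) : ℝ) + 1 := by
    rw [div_le_iff₀ hm']; exact_mod_cast h2
  rw [abs_le]
  constructor <;> linarith

/-- If some `p ∈ T` divides `r₀ W` both sides vanish (`p ∣ r₀ D n + 1`, `p ∣ r₀` or `r₀ D n + 1 ≡ r₀ c + 1 (p)`).  Otherwise
`d`, `e = ∏ T`, `W` are pairwise coprime and `d e` is coprime to `r₀ D` (`d`, `D` rough, `r₀ W ≤ z`, the primes of `T` are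
`≤ z`): `sum_a1`, `a1_class` with `q = d e`, `hAP` with modulus `d e W`, `φ(d e W) = φ(d) φ(W) ∏ (p - 1)`
(`Nat.totient_mul`, induction on `T` or `Nat.totient_prod…`), and `0 ≤ d t / (r₀ D) - B ≤ 1` for `B = (d t - 1) / (r₀ D)`. -/
theorem ap_a1 {r₀ W c : ℕ} (h : Cl r₀ W c) {X Q : ℕ} {E z : ℝ} (hAP : HypAP X Q E) (hE : 0 ≤ E) (hz : 1 ≤ z)
    (hQz : ((r₀ * W : ℕ) : ℝ) ≤ z) {D d t k : ℕ} (hD : 1 ≤ D) (hd : 1 ≤ d) (rD : Rgh z D) (rd : Rgh z d)
    (hco : Nat.Coprime d D) (hQ : d * ⌊z⌋₊ ^ (k + 1) * W ≤ Q) (ht : d * t ≤ X) {T : Finset ℕ} (hT : T ⊆ Pz z)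
    (hk : T.card ≤ k + 1) :
    |∑ r ∈ Icc 1 t, (if (∏ p ∈ T, p) ∣ r then a1 r₀ W c D (d * r) else 0) -
      (d : ℝ) * t / (r₀ * D * Nat.totient W * Nat.totient d) * ∏ p ∈ T, g2 (r₀ * W) p| ≤ E + 1 := by
  have hz0 : 0 ≤ z := by linarith
  have hTp : ∀ p ∈ T, p.Prime ∧ (p : ℝ) ≤ z := fun p hp => (mem_Pz hz0).1 (hT hp)
  have hr := h.hr
  have hW := h.hW
  rw [sum_a1 hr hD hd t]
  by_cases hex : ∃ p ∈ T, p ∣ r₀ * W
  · obtain ⟨p, hp, hpd⟩ := hex
    have hpp := (hTp p hp).1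
    rw [prod_eq_zero (f := g2 (r₀ * W)) hp (by rw [g2, if_pos hpd]), mul_zero, sub_zero, sum_eq_zero, abs_zero]
    · linarith
    · intro n hn
      exfalso
      obtain ⟨-, h1, h2⟩ := mem_filter.1 hn
      have h3 : p ∣ r₀ * D * n + 1 := ((dvd_prod_of_mem _ hp).mul_left d).trans h1
      rcases (Nat.Prime.dvd_mul hpp).1 hpd with h4 | h4
      · exact hpp.not_dvd_one ((Nat.dvd_add_right ((h4.mul_right D).mul_right n)).1 h3)
      · have h5 : r₀ * D * n + 1 ≡ r₀ * c + 1 [MOD p] := by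
          rw [mul_assoc]
          exact ((h2.of_dvd h4).mul_left r₀).add_right 1
        have h6 : p ∣ r₀ * c + 1 := (h5.dvd_iff dvd_rfl).1 h3
        exact hpp.not_dvd_one (h.hy ▸ Nat.dvd_gcd h6 h4)
  have hnd : ∀ p ∈ T, ¬ p ∣ r₀ * W := fun p hp hd => hex ⟨p, hp, hd⟩
  set e := ∏ p ∈ T, p with he
  have he1 : 1 ≤ e := Finset.prod_pos fun p hp => (hTp p hp).1.pos
  have hes : ∀ p : ℕ, p.Prime → p ∣ e → (p : ℝ) ≤ z := by
    intro p hp hpe
    obtain ⟨q, hq, hpq⟩ := (Prime.dvd_finsetProd_iff hp.prime _).1 hpe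
    rw [(Nat.prime_dvd_prime_iff_eq hp (hTp q hq).1).1 hpq]
    exact (hTp q hq).2
  have hrW : ∀ p : ℕ, p.Prime → p ∣ r₀ * W → (p : ℝ) ≤ z := fun p _ hp =>
    le_trans (by exact_mod_cast Nat.le_of_dvd (Nat.mul_pos hr hW) hp) hQz
  have ce : Nat.Coprime e (r₀ * W) :=
    Nat.Coprime.prod_left fun p hp => (Nat.Prime.coprime_iff_not_dvd (hTp p hp).1).2 (hnd p hp)
  have cd : Nat.Coprime d (r₀ * W) := ma_b_cop rd hrW
  have cD : Nat.Coprime D (r₀ * W) := ma_b_cop rD hrW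
  have cde : Nat.Coprime d e := ma_b_cop rd hes
  have cDe : Nat.Coprime D e := ma_b_cop rD hes
  have cq : Nat.Coprime (d * e) (r₀ * W) := Nat.Coprime.mul_left cd ce
  have c1 : Nat.Coprime (d * e) (r₀ * D) :=
    Nat.Coprime.mul_right cq.coprime_mul_right_right (Nat.Coprime.mul_left hco cDe.symm)
  have c2 : Nat.Coprime (d * e) W := cq.coprime_mul_left_right
  obtain ⟨a, ha, hcl⟩ := a1_class hW (Nat.mul_pos hd he1) h.hc c1 c2 cD.coprime_mul_left_right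
  rw [filter_congr fun n _ => hcl n]
  have hz1 : 1 ≤ ⌊z⌋₊ := Nat.le_floor (by exact_mod_cast hz)
  have hele : e ≤ ⌊z⌋₊ ^ (k + 1) :=
    (Finset.prod_le_pow_card T _ _ fun p hp => Nat.le_floor (hTp p hp).2).trans
      (Nat.pow_le_pow_right hz1 hk)
  have hq1 : 1 ≤ d * e * W := Nat.mul_pos (Nat.mul_pos hd he1) hW
  have hA := hAP (d * e * W) a ((d * t - 1) / (r₀ * D)) hq1
    (le_trans (Nat.mul_le_mul_right _ (Nat.mul_le_mul_left _ hele)) hQ) ha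
    (((Nat.div_le_self _ _).trans (Nat.sub_le _ _)).trans ht)
  have hφ1 : (1 : ℝ) ≤ Nat.totient (d * e * W) := by exact_mod_cast Nat.totient_pos.2 hq1
  have hmain : (d : ℝ) * t / (r₀ * D * Nat.totient W * Nat.totient d) * ∏ p ∈ T, g2 (r₀ * W) p =
      ((d * t : ℕ) : ℝ) / ((r₀ * D : ℕ) : ℝ) / Nat.totient (d * e * W) := by
    rw [Nat.totient_mul c2, Nat.totient_mul cde, prod_congr rfl fun p hp => by rw [g2, if_neg (hnd p hp)],
      prod_div_distrib, prod_const_one, ← ma_b_tot T fun p hp => (hTp p hp).1, ← he]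
    push_cast
    ring
  have hfl := ma_b_floor (d * t) (Nat.mul_pos hr hD)
  rw [hmain]
  refine (abs_sub_le _ _ _).trans (add_le_add hA ?_)
  rw [← sub_div, abs_div, abs_of_nonneg (by linarith : (0 : ℝ) ≤ Nat.totient (d * e * W))]
  exact (div_le_self (abs_nonneg _) hφ1).trans hfl

end

end Crest.Agent.R27.M
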