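import Crest.Agent.R27.ArithIface
import Crest.Agent.R26.S.TypeI
import Crest.Agent.R26.S.TypeII
import Crest.Agent.R26.S.Marks
import Crest.Agent.R26.S.Num

/-!
# Row 27, block M (`StMain27`, owner helper57): definitions

Plan.  `AA y = ∑_D Λ(n) [y = r₀ D n + 1, D n ≡ c (W)]`, `ww = AA - lam · 𝒱`, where `lam ≍ 1` is the ratio of the two
sieve products.  Vaughan's identity on rough numbers (`R26.S.vaughan`) for `ww`: the type I sums are small because the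
pure sieve gives the same main term for `AA` and for the constant (`Sieve`, `AP`, `TypeI`); the type II sums are small by
`StII` (class condition split over `m mod r₀ W`, `SWc`, `HypII`) and by Siegel–Walfisz for the constant (`TypeII`).
So `∑_{x/2 < y ≤ x} Λ rg AA = lam 𝒱 (x/2) + o(𝒱 x)`.  API of block S: `R26/S/*` (`rg`, `TIa`, `TIb`, `TII`, `BII`, `WW`).
-/

set_option autoImplicit false

namespace Crest.Agent.R27.M

open Finset Crest.Agent.R26 Crest.Agent.R26.S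
open scoped Classical

noncomputable section

/-- the residue class data -/
structure Cl (r₀ W c : ℕ) : Prop where
  hW : 1 ≤ W
  h2 : 2 ∣ r₀
  hr : 1 ≤ r₀
  hc : Nat.Coprime c W
  hy : Nat.Coprime (r₀ * c + 1) W

/-- the primes `≤ z` -/
def Pz (z : ℝ) : Finset ℕ := (Icc 1 ⌊z⌋₊).filter Nat.Prime

/-- the weight of one mark `D` -/
def a1 (r₀ W c D y : ℕ) : ℝ :=
  if r₀ * D ∣ y - 1 ∧ D * ((y - 1) / (r₀ * D)) ≡ c [MOD W] then
    ArithmeticFunction.vonMangoldt ((y - 1) / (r₀ * D)) else 0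

/-- the weight of all marks -/
def AA (r₀ W c : ℕ) {K : ℕ} (P : Fin (K + 1) → Finset ℕ) (y : ℕ) : ℝ := ∑ p ∈ Dvec P, a1 r₀ W c (pv p) y

/-- the local density of `AA` -/
def g2 (Q p : ℕ) : ℝ := if p ∣ Q then 0 else 1 / ((p : ℝ) - 1)

def V1 (z : ℝ) : ℝ := ∏ p ∈ Pz z, (1 - 1 / (p : ℝ))

def V2 (Q : ℕ) (z : ℝ) : ℝ := ∏ p ∈ Pz z, (1 - g2 Q p)

/-- the singular series -/
def lam (r₀ W : ℕ) (z : ℝ) : ℝ := V2 (r₀ * W) z / (V1 z * (r₀ * Nat.totient W))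

/-- the difference -/
def ww (r₀ W c : ℕ) {K : ℕ} (P : Fin (K + 1) → Finset ℕ) (z : ℝ) (y : ℕ) : ℝ :=
  AA r₀ W c P y - lam r₀ W z * Vtot P

/-- number of sieve terms -/
def sB (z : ℝ) (k : ℕ) : ℝ := ((k : ℝ) + 2) * z ^ (k + 1)

/-- sieve truncation error -/
def sT2 (z : ℝ) (k : ℕ) : ℝ := (2 * (1 + Real.log z)) ^ (k + 1) / (k + 1).factorial

/-- primes in progressions, finite form -/
def HypAP (X Q : ℕ) (E : ℝ) : Prop :=
  ∀ q a B : ℕ, 1 ≤ q → q ≤ Q → Nat.Coprime a q → B ≤ X →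
    |∑ n ∈ (Icc 1 B).filter (fun n => n ≡ a [MOD q]), ArithmeticFunction.vonMangoldt n -
      (B : ℝ) / Nat.totient q| ≤ E

/-- the type II input for an arbitrary weight -/
def HypW (w : ℕ → ℝ) (z L : ℝ) (X U : ℕ) (E₂ : ℝ) : Prop :=
  ∀ (M M' N : ℕ) (β : ℕ → ℝ), U ≤ M → U ≤ N → M * N ≤ X → Coef z L β →
    |∑ m ∈ Ioc M (2 * M), ∑ n ∈ Ioc N (2 * N), muR z M' m * β n * w (m * n)| ≤ E₂

/-- the type I bound; `N = #marks`, `V = 𝒱`, `Λ₀ ≥ lam` -/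
def BI (K : ℕ) (N V L z E Λ₀ : ℝ) (X U k : ℕ) : ℝ :=
  3 * L * ((U : ℝ) ^ 2 * (N * (sB z k * (E + 1 + Λ₀))) +
    X * V * (1 + L) * (4 * L / z + (4 + 2 * Λ₀) * sT2 z k + Λ₀ * ((K : ℝ) + 1) / z))

/-- the total bound -/
def Bnd (K : ℕ) (N V L z E E₂ Λ₀ : ℝ) (X U R k : ℕ) : ℝ :=
  U * L * (N * L + Λ₀ * V) + BI K N V L z E Λ₀ X U k + 2 * L * BII N V L E₂ X U R +
    Λ₀ * V * BII 1 1 L E₂ X U R

/-- parameters -/
def UU (x : ℝ) : ℕ := ⌈x ^ (1 / 200 : ℝ)⌉₊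
def RR (x : ℝ) : ℕ := ⌈Real.log x ^ 4⌉₊
def kk (x : ℝ) : ℕ := ⌈Real.log x ^ (1 / 4 : ℝ)⌉₊
def QQ (x : ℝ) : ℕ := ⌊x ^ (1 / 50 : ℝ)⌋₊

theorem mem_Pz {z : ℝ} (hz : 0 ≤ z) {p : ℕ} : p ∈ Pz z ↔ p.Prime ∧ (p : ℝ) ≤ z := by
  rw [Pz, mem_filter, mem_Icc, Nat.le_floor_iff hz]
  exact ⟨fun h => ⟨h.2, h.1.2⟩, fun h => ⟨⟨h.1.one_le, h.2⟩, h.1⟩⟩

theorem a1_nonneg (r₀ W c D y : ℕ) : 0 ≤ a1 r₀ W c D y := by
  unfold a1; split_ifs
  · exact ArithmeticFunction.vonMangoldt_nonneg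
  · exact le_rfl

theorem AA_nonneg (r₀ W c : ℕ) {K : ℕ} (P : Fin (K + 1) → Finset ℕ) (y : ℕ) : 0 ≤ AA r₀ W c P y :=
  sum_nonneg fun _ _ => a1_nonneg _ _ _ _ _

theorem a1_le (r₀ W c D : ℕ) {y : ℕ} {L : ℝ} (hL : Real.log y ≤ L) :
    a1 r₀ W c D y ≤ L * if D ∣ y - 1 then 1 else 0 := by
  have h0 : 0 ≤ L := (Real.log_natCast_nonneg y).trans hL
  unfold a1
  split_ifs with h1 h2
  · rw [mul_one]
    refine ArithmeticFunction.vonMangoldt_le_log.trans (le_trans ?_ hL)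
    rcases Nat.eq_zero_or_pos ((y - 1) / (r₀ * D)) with h | h
    · rw [h, Nat.cast_zero, Real.log_zero]; exact Real.log_natCast_nonneg y
    · exact Real.log_le_log (by exact_mod_cast h)
        (by exact_mod_cast (Nat.div_le_self _ _).trans (Nat.sub_le y 1))
  · exact absurd ((dvd_mul_left D r₀).trans h1.1) h2
  · simpa using h0
  · simp

theorem AA_le (r₀ W c : ℕ) {K : ℕ} (P : Fin (K + 1) → Finset ℕ) {y : ℕ} {L : ℝ} (hL : Real.log y ≤ L) :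
    AA r₀ W c P y ≤ L * WW P (fun _ => 1) y := by
  unfold AA WW w1
  rw [mul_sum]
  exact sum_le_sum fun p _ => a1_le _ _ _ _ hL

theorem sB_nonneg {z : ℝ} (hz : 0 ≤ z) (k : ℕ) : 0 ≤ sB z k := by unfold sB; positivity

theorem sT2_nonneg {z : ℝ} (hz : 1 ≤ z) (k : ℕ) : 0 ≤ sT2 z k := by
  unfold sT2
  have := Real.log_nonneg hz
  positivity

end

end Crest.Agent.R27.M
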