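import Crest.Agent.R27.M.Defs

/-! Row 27, block M: the singular series, the pure sieve.  Prefix for helper lemmas: `ml_`. -/

set_option autoImplicit false

namespace Crest.Agent.R27.M

open Finset Filter Crest.Agent.R26 Crest.Agent.R26.S
open scoped Classical

noncomputable section

/-- `2 ∣ Q`, so `p ∤ Q` gives `p ≥ 3` -/
theorem g2_bd {Q p : ℕ} (h2 : 2 ∣ Q) (hp : p.Prime) : 0 ≤ g2 Q p ∧ g2 Q p ≤ 2 / p ∧ g2 Q p ≤ 1 := by
  have h : (2 : ℝ) ≤ p := by exact_mod_cast hp.two_le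
  unfold g2
  split_ifs
  · exact ⟨le_rfl, by positivity, zero_le_one⟩
  · refine ⟨one_div_nonneg.2 (by linarith), ?_, ?_⟩
    · rw [div_le_div_iff₀ (by linarith) (by linarith)]
      linarith
    · rw [div_le_one (by linarith)]
      linarith

theorem V1_pos (z : ℝ) : 0 < V1 z := by
  refine prod_pos fun p hp => ?_
  have h : (2 : ℝ) ≤ p := by exact_mod_cast (mem_filter.1 hp).2.two_le
  rw [sub_pos, div_lt_one (by linarith)]
  linarith

theorem V2_bd {Q : ℕ} (h2 : 2 ∣ Q) (z : ℝ) : 0 ≤ V2 Q z ∧ V2 Q z ≤ 1 := by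
  have h : ∀ p ∈ Pz z, 0 ≤ 1 - g2 Q p ∧ 1 - g2 Q p ≤ 1 := fun p hp => by
    have := g2_bd h2 (mem_filter.1 hp).2
    exact ⟨by linarith [this.2.2], by linarith [this.1]⟩
  exact ⟨prod_nonneg fun p hp => (h p hp).1, prod_le_one (fun p hp => (h p hp).1) fun p hp => (h p hp).2⟩

theorem ml_a_prod {ι : Type*} (s : Finset ι) (a : ι → ℝ) (h : ∀ i ∈ s, 0 ≤ a i ∧ a i ≤ 1) :
    1 - ∑ i ∈ s, a i ≤ ∏ i ∈ s, (1 - a i) := by
  induction s using Finset.induction_on with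
  | empty => simp
  | insert i s hi ih =>
    rw [sum_insert hi, prod_insert hi]
    have h1 := h i (mem_insert_self i s)
    have h2 := ih fun j hj => h j (mem_insert_of_mem hj)
    have h3 : 0 ≤ ∑ j ∈ s, a j := sum_nonneg fun j hj => (h j (mem_insert_of_mem hj)).1
    have h4 := mul_le_mul_of_nonneg_left h2 (sub_nonneg.2 h1.2)
    nlinarith [mul_nonneg h1.1 h3]

theorem ml_a_tele (N : ℕ) :
    ∑ n ∈ Icc 3 (N + 2), 1 / ((n : ℝ) - 1) ^ 2 ≤ 2 / 3 - 1 / ((N : ℝ) + 3 / 2) := by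
  induction N with
  | zero => norm_num
  | succ N ih =>
    rw [show N + 1 + 2 = N + 2 + 1 from rfl, sum_Icc_succ_top (by omega)]
    have hN : (0 : ℝ) ≤ N := Nat.cast_nonneg N
    have h1 : 1 / (((N + 2 + 1 : ℕ) : ℝ) - 1) ^ 2 ≤
        1 / ((N : ℝ) + 3 / 2) - 1 / (((N + 1 : ℕ) : ℝ) + 3 / 2) := by
      push_cast
      rw [div_sub_div _ _ (by positivity) (by positivity),
        div_le_div_iff₀ (by nlinarith) (by positivity)]
      nlinarith
    linarith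

/-- `V2 / V1 = ∏ (1 - g2 p) / (1 - 1/p)`; a factor is `1 - 1/(p-1)²` if `p ∤ Q` (then `p ≥ 3`) and lies in `[1, 2]` if
`p ∣ Q`.  Lower bound: `∏ (1 - a_p) ≥ 1 - ∑ a_p` (induction), `∑_{m ≥ 2} 1/m² ≤ 3/4`
(`sum_Ioc_inv_sq_le_sub`).  Upper bound: at most `Q` primes divide `Q ≥ 1`. -/
theorem ratio_bd {Q : ℕ} (hQ : 1 ≤ Q) (h2 : 2 ∣ Q) (z : ℝ) :
    1 / 4 ≤ V2 Q z / V1 z ∧ V2 Q z / V1 z ≤ 2 ^ Q := by
  have e : V2 Q z / V1 z = ∏ p ∈ Pz z, (1 - g2 Q p) / (1 - 1 / (p : ℝ)) := by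
    rw [prod_div_distrib, V1, V2]
  have h3 : ∀ p ∈ Pz z, ¬ p ∣ Q → 3 ≤ p := by
    intro p hp hd
    have h4 := (mem_filter.1 hp).2.two_le
    by_contra h5
    exact hd ((show p = 2 by omega) ▸ h2)
  have hf : ∀ p ∈ Pz z, (0 ≤ (if p ∣ Q then 0 else 1 / ((p : ℝ) - 1) ^ 2) ∧
      (if p ∣ Q then 0 else 1 / ((p : ℝ) - 1) ^ 2) ≤ 1) ∧
      1 - (if p ∣ Q then 0 else 1 / ((p : ℝ) - 1) ^ 2) ≤ (1 - g2 Q p) / (1 - 1 / (p : ℝ)) ∧
      (1 - g2 Q p) / (1 - 1 / (p : ℝ)) ≤ if p ∣ Q then 2 else 1 := by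
    intro p hp
    have h : (2 : ℝ) ≤ p := by exact_mod_cast (mem_filter.1 hp).2.two_le
    have h0 : (0 : ℝ) < p := by linarith
    have h1 : (0 : ℝ) < (p : ℝ) - 1 := by linarith
    unfold g2
    split_ifs with hd
    · have e1 : (1 - 0) / (1 - 1 / (p : ℝ)) = p / (p - 1) := by field_simp; ring
      rw [e1, le_div_iff₀ h1, div_le_iff₀ h1]
      exact ⟨⟨le_rfl, zero_le_one⟩, by linarith, by linarith⟩
    · have e1 : (1 - 1 / ((p : ℝ) - 1)) / (1 - 1 / (p : ℝ)) = 1 - 1 / ((p : ℝ) - 1) ^ 2 := by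
        field_simp; ring
      have h5 : 0 ≤ 1 / ((p : ℝ) - 1) ^ 2 := by positivity
      rw [e1]
      refine ⟨⟨h5, ?_⟩, le_rfl, by linarith⟩
      rw [div_le_one (by positivity)]
      nlinarith
  rw [e]
  constructor
  · refine le_trans ?_ (prod_le_prod (fun p hp => sub_nonneg.2 (hf p hp).1.2) fun p hp => (hf p hp).2.1)
    refine le_trans ?_ (ml_a_prod _ _ fun p hp => (hf p hp).1)
    have h4 : ∑ p ∈ Pz z, (if p ∣ Q then 0 else 1 / ((p : ℝ) - 1) ^ 2) ≤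
        ∑ n ∈ Icc 3 (⌊z⌋₊ + 2), 1 / ((n : ℝ) - 1) ^ 2 := by
      rw [sum_ite, sum_const_zero, zero_add]
      refine sum_le_sum_of_subset_of_nonneg (fun p hp => ?_) fun n _ _ => by positivity
      obtain ⟨h5, h6⟩ := mem_filter.1 hp
      exact mem_Icc.2 ⟨h3 p h5 h6, (mem_Icc.1 (mem_filter.1 h5).1).2.trans (Nat.le_add_right _ _)⟩
    have h5 := ml_a_tele ⌊z⌋₊
    have h6 : 0 ≤ 1 / ((⌊z⌋₊ : ℝ) + 3 / 2) := by positivity
    linarith
  · refine (prod_le_prod (fun p hp => (sub_nonneg.2 (hf p hp).1.2).trans (hf p hp).2.1)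
      fun p hp => (hf p hp).2.2).trans ?_
    rw [prod_ite, prod_const_one, mul_one, prod_const]
    refine pow_le_pow_right₀ one_le_two ?_
    refine (card_le_card (t := Icc 1 Q) fun p hp => ?_).trans (by simp)
    obtain ⟨h5, h6⟩ := mem_filter.1 hp
    exact mem_Icc.2 ⟨(mem_filter.1 h5).2.one_le, Nat.le_of_dvd hQ h6⟩

theorem lam_bd {r₀ W c : ℕ} (h : Cl r₀ W c) (z : ℝ) :
    1 / (4 * ((r₀ : ℝ) * Nat.totient W)) ≤ lam r₀ W z ∧ lam r₀ W z ≤ 2 ^ (r₀ * W) := by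
  obtain ⟨h1, h2⟩ := ratio_bd (Q := r₀ * W) (Nat.mul_pos h.hr h.hW) (h.h2.mul_right W) z
  have h3 : (1 : ℝ) ≤ (r₀ : ℝ) * Nat.totient W := by
    exact_mod_cast Nat.mul_pos h.hr (Nat.totient_pos.2 h.hW)
  have e : lam r₀ W z = V2 (r₀ * W) z / V1 z / (r₀ * Nat.totient W) := by rw [lam, div_div]
  rw [e]
  constructor
  · rw [← div_div]
    exact div_le_div_of_nonneg_right h1 (by linarith)
  · exact (div_le_self (by linarith) h3).trans h2

theorem lam_mul (r₀ W : ℕ) (z : ℝ) : lam r₀ W z * V1 z = V2 (r₀ * W) z / (r₀ * Nat.totient W) := by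
  rw [lam, ← div_div, div_right_comm, div_mul_cancel₀ _ (V1_pos z).ne']

/-- `2 ^ ω(d) ≤ d`, so `ω(d) ≤ 2L`; `φ(d) = d ∏ (1 - 1/p) ≥ d (1 - 2L/z)` (`Nat.totient_eq_mul_prod_factors`) -/
theorem rgh_totient {z L : ℝ} {d : ℕ} (hd : 1 ≤ d) (hr : Rgh z d) (hL : Real.log d ≤ L) (hz0 : 0 < z)
    (hz : 4 * L ≤ z) : (d : ℝ) ≤ (1 + 4 * L / z) * Nat.totient d := by
  have hd0 : (0 : ℝ) < d := by exact_mod_cast hd
  have hL0 : 0 ≤ L := (Real.log_natCast_nonneg d).trans hL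
  have e : (Nat.totient d : ℝ) = d * ∏ p ∈ d.primeFactors, (1 - (p : ℝ)⁻¹) := by
    have := congrArg (Rat.cast : ℚ → ℝ) (Nat.totient_eq_mul_prod_factors d)
    push_cast at this
    exact this
  have h1 : 2 ^ d.primeFactors.card ≤ d :=
    (pow_card_le_prod _ _ _ fun p hp => (Nat.prime_of_mem_primeFactors hp).two_le).trans
      (Nat.le_of_dvd hd (Nat.prod_primeFactors_dvd d))
  have h2 : (d.primeFactors.card : ℝ) ≤ 2 * L := by
    have h3 : (d.primeFactors.card : ℝ) * Real.log 2 ≤ Real.log d := by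
      rw [← Real.log_pow]
      exact Real.log_le_log (by positivity) (by exact_mod_cast h1)
    have h4 := Real.log_two_gt_d9
    have h5 : (0 : ℝ) ≤ d.primeFactors.card := Nat.cast_nonneg _
    nlinarith
  have h3 : ∑ p ∈ d.primeFactors, (p : ℝ)⁻¹ ≤ 2 * (L / z) := by
    refine (sum_le_card_nsmul _ _ z⁻¹ fun p hp => inv_anti₀ hz0
      (hr p (Nat.prime_of_mem_primeFactors hp) (Nat.dvd_of_mem_primeFactors hp)).le).trans ?_
    rw [nsmul_eq_mul, div_eq_mul_inv, ← mul_assoc]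
    exact mul_le_mul_of_nonneg_right h2 (inv_pos.2 hz0).le
  have h4 := ml_a_prod d.primeFactors (fun p => (p : ℝ)⁻¹) fun p hp =>
    ⟨by positivity, inv_le_one_of_one_le₀ (by exact_mod_cast (Nat.prime_of_mem_primeFactors hp).one_le)⟩
  have h5 : 0 ≤ L / z := by positivity
  have h6 : L / z ≤ 1 / 4 := by
    rw [div_le_iff₀ hz0]
    linarith
  have h7 : 1 ≤ (1 + 4 * (L / z)) * ∏ p ∈ d.primeFactors, (1 - (p : ℝ)⁻¹) := by
    have h8 := mul_le_mul_of_nonneg_left (show 1 - 2 * (L / z) ≤ _ from le_trans (by linarith) h4)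
      (show 0 ≤ 1 + 4 * (L / z) by positivity)
    nlinarith
  rw [e, mul_div_assoc, mul_left_comm]
  exact le_mul_of_one_le_right hd0.le h7

theorem mlb_card (z : ℝ) : (Pz z).card ≤ ⌊z⌋₊ := by
  refine (card_filter_le _ _).trans ?_
  simp

theorem mlb_tail {g : ℕ → ℝ} {z : ℝ} (hz : 1 ≤ z) (hg : ∀ p ∈ Pz z, 0 ≤ g p ∧ g p ≤ 2 / p ∧ g p ≤ 1)
    (k : ℕ) : ∑ T ∈ (Pz z).powersetCard (k + 1), ∏ p ∈ T, g p ≤ sT2 z k := by
  refine (R58.esymm_le _ g (fun p hp => (hg p hp).1) (k + 1)).trans ?_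
  unfold sT2
  refine div_le_div_of_nonneg_right
    (pow_le_pow_left₀ (sum_nonneg fun p hp => (hg p hp).1) ?_ _) (by positivity)
  have h1 : 1 ≤ ⌊z⌋₊ := (Nat.one_le_floor_iff z).2 hz
  have h2 : Real.log ⌊z⌋₊ ≤ Real.log z :=
    Real.log_le_log (by exact_mod_cast h1) (Nat.floor_le (by linarith))
  calc _ ≤ ∑ p ∈ Pz z, 2 * (1 / (p : ℝ)) :=
        sum_le_sum fun p hp => by rw [mul_one_div]; exact (hg p hp).2.1
    _ ≤ ∑ p ∈ Icc 1 ⌊z⌋₊, 2 * (1 / (p : ℝ)) :=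
        sum_le_sum_of_subset_of_nonneg (filter_subset _ _) fun p _ _ => by positivity
    _ ≤ _ := by
        rw [← mul_sum]
        linarith [sum_inv_le ⌊z⌋₊]

/-- the pure sieve.  `S.rg_bonf` (its prime set is `Pz z`) multiplied by `u r ≥ 0` and summed; `R58.bonferroni` for `g`;
`R58.sift_card_le`, `R58.sift_card_eq`, `R58.esymm_le`, `∑ g ≤ 2 (1 + log z)` (`S.sum_inv_le`).  Compare the proof of
`R58.sift_brun`. -/
theorem sieve_gen {u g : ℕ → ℝ} {z M E : ℝ} {k t : ℕ} (hz : 1 ≤ z) (hu : ∀ r, 0 ≤ u r)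
    (hg : ∀ p ∈ Pz z, 0 ≤ g p ∧ g p ≤ 2 / p ∧ g p ≤ 1) (hM : 0 ≤ M) (hE : 0 ≤ E)
    (h : ∀ T ⊆ Pz z, T.card ≤ k + 1 →
      |∑ r ∈ Icc 1 t, (if (∏ p ∈ T, p) ∣ r then u r else 0) - M * ∏ p ∈ T, g p| ≤ E) :
    |∑ r ∈ Icc 1 t, rg z r * u r - M * ∏ p ∈ Pz z, (1 - g p)| ≤ sB z k * E + 2 * M * sT2 z k := by
  set S : Finset ℕ → ℝ := fun T => ∑ r ∈ Icc 1 t, (if (∏ p ∈ T, p) ∣ r then u r else 0) with hS
  have hz1 : 1 ≤ ⌊z⌋₊ := (Nat.one_le_floor_iff z).2 hz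
  have hzp : ((⌊z⌋₊ : ℝ)) ^ (k + 1) ≤ z ^ (k + 1) :=
    pow_le_pow_left₀ (by positivity) (Nat.floor_le (by linarith)) _
  have h1 : |∑ r ∈ Icc 1 t, rg z r * u r -
      ∑ T ∈ (Pz z).powerset.filter (fun T => T.card ≤ k), (-1) ^ T.card * S T| ≤
      ∑ T ∈ (Pz z).powersetCard (k + 1), S T := by
    simp only [hS, mul_sum]
    rw [sum_comm (s := (Pz z).powerset.filter _), sum_comm (s := (Pz z).powersetCard _),
      ← sum_sub_distrib]
    refine (abs_sum_le_sum_abs _ _).trans (sum_le_sum fun r _ => ?_)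
    have := mul_le_mul_of_nonneg_right (rg_bonf hz k r) (hu r)
    rw [← abs_of_nonneg (hu r), ← abs_mul, abs_of_nonneg (hu r), sub_mul, sum_mul, sum_mul] at this
    simpa only [Pz, mul_assoc, ite_mul, one_mul, zero_mul] using this
  have h2 : ∑ T ∈ (Pz z).powersetCard (k + 1), S T ≤
      M * ∑ T ∈ (Pz z).powersetCard (k + 1), ∏ p ∈ T, g p + z ^ (k + 1) * E := by
    have : ∑ T ∈ (Pz z).powersetCard (k + 1), S T ≤
        ∑ T ∈ (Pz z).powersetCard (k + 1), (M * ∏ p ∈ T, g p + E) := by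
      refine sum_le_sum fun T hT' => ?_
      rw [mem_powersetCard] at hT'
      have := (abs_le.1 (h T hT'.1 hT'.2.le)).2
      simp only [hS]
      linarith
    rw [sum_add_distrib, sum_const, nsmul_eq_mul, ← mul_sum] at this
    refine this.trans (add_le_add_right (mul_le_mul_of_nonneg_right (le_trans ?_ hzp) hE) _)
    exact_mod_cast R58.sift_card_eq (Pz z) hz1 (mlb_card z) le_rfl
  have h3 : |∑ T ∈ (Pz z).powerset.filter (fun T => T.card ≤ k), (-1) ^ T.card * S T -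
      M * ∑ T ∈ (Pz z).powerset.filter (fun T => T.card ≤ k), (-1) ^ T.card * ∏ p ∈ T, g p| ≤
      ((k + 1) * z ^ (k + 1)) * E := by
    rw [mul_sum, ← sum_sub_distrib]
    refine (abs_sum_le_sum_abs _ _).trans ((sum_le_card_nsmul _ _ E fun T hT' => ?_).trans ?_)
    · rw [mem_filter, mem_powerset] at hT'
      rw [mul_left_comm, ← mul_sub, abs_mul, abs_pow, abs_neg, abs_one, one_pow, one_mul]
      exact h T hT'.1 (by omega)
    · rw [nsmul_eq_mul]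
      refine mul_le_mul_of_nonneg_right
        (le_trans ?_ (mul_le_mul_of_nonneg_left hzp (by positivity))) hE
      exact_mod_cast R58.sift_card_le (Pz z) hz1 (mlb_card z)
  have h4 := mul_le_mul_of_nonneg_left
    (R58.bonferroni (Pz z) g (fun p hp => ⟨(hg p hp).1, (hg p hp).2.2⟩) k) hM
  rw [← abs_of_nonneg hM, ← abs_mul, abs_of_nonneg hM, mul_sub] at h4
  have h5 := mul_le_mul_of_nonneg_left (mlb_tail hz hg k) hM
  unfold sB
  rw [abs_le] at h1 h3 h4 ⊢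
  constructor <;> linarith [h1.1, h1.2, h3.1, h3.2, h4.1, h4.2]

/-- `sieve_gen` with `u = 1`, `g p = 1/p`, `M = t`, `E = 1` (`Nat.Ioc_filter_dvd_card_eq_div`) -/
theorem sieve_one {z : ℝ} (hz : 1 ≤ z) (k t : ℕ) :
    |∑ r ∈ Icc 1 t, rg z r - t * V1 z| ≤ sB z k + 2 * t * sT2 z k := by
  have h := sieve_gen (u := fun _ => 1) (g := fun p => 1 / (p : ℝ)) (M := t) (E := 1) (k := k) (t := t) hz
    (fun _ => zero_le_one) (fun p hp => ?_) (Nat.cast_nonneg t) zero_le_one fun T hT _ => ?_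
  · simpa only [mul_one, V1] using h
  · have h1 : (1 : ℝ) ≤ p := by exact_mod_cast ((mem_Pz (by linarith)).1 hp).1.one_le
    exact ⟨by positivity, div_le_div_of_nonneg_right one_le_two (by linarith),
      (div_le_one (by linarith)).2 h1⟩
  · have hd : 0 < ∏ p ∈ T, p := prod_pos fun p hp => ((mem_Pz (by linarith)).1 (hT hp)).1.pos
    have e : ∏ p ∈ T, 1 / (p : ℝ) = 1 / ((∏ p ∈ T, p : ℕ) : ℝ) := by
      rw [prod_div_distrib, prod_const_one, Nat.cast_prod]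
    rw [e, sum_boole, show Icc 1 t = Ioc 0 t from rfl, Nat.Ioc_filter_dvd_card_eq_div, mul_one_div,
      ← Nat.floor_div_eq_div (K := ℝ), abs_sub_comm]
    have h0 : (0 : ℝ) ≤ t / ((∏ p ∈ T, p : ℕ) : ℝ) := by positivity
    rw [abs_le]
    constructor
    · linarith [Nat.floor_le h0]
    · linarith [Nat.lt_floor_add_one ((t : ℝ) / ((∏ p ∈ T, p : ℕ) : ℝ))]

end

end Crest.Agent.R27.M
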