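import Crest.Agent.R27.M.AP

/-! Row 27, block M: type I.  Prefix for helper lemmas: `m1_`. -/

set_option autoImplicit false

namespace Crest.Agent.R27.M

open Finset Filter Crest.Agent.R26 Crest.Agent.R26.S
open scoped Classical

noncomputable section

theorem m1_a1_zero {r₀ W c D d r : ℕ} (hd : 1 ≤ d) (hr : 1 ≤ r) (h : ¬ Nat.Coprime d D) :
    a1 r₀ W c D (d * r) = 0 := by
  unfold a1
  refine if_neg fun h1 => h ?_
  have h2 : D ∣ d * r - 1 := (dvd_mul_left D r₀).trans h1.1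
  have h3 : Nat.gcd d D ∣ d * r - 1 := (Nat.gcd_dvd_right d D).trans h2
  have h4 : Nat.gcd d D ∣ d * r := (Nat.gcd_dvd_left d D).mul_right r
  have h5 : 1 ≤ d * r := Nat.mul_pos hd hr
  have h6 := Nat.dvd_sub h4 h3
  rw [show d * r - (d * r - 1) = 1 by omega] at h6
  exact Nat.dvd_one.1 h6

theorem m1_sum_rg (z : ℝ) (t : ℕ) : 0 ≤ ∑ r ∈ Icc 1 t, rg z r ∧ ∑ r ∈ Icc 1 t, rg z r ≤ t := by
  refine ⟨sum_nonneg fun r _ => by unfold rg; split_ifs <;> norm_num, ?_⟩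
  calc ∑ r ∈ Icc 1 t, rg z r ≤ ∑ _r ∈ Icc 1 t, (1 : ℝ) :=
        sum_le_sum fun r _ => by unfold rg; split_ifs <;> norm_num
    _ = t := by simp

/-- Not coprime: `a1 … (d r) = 0` for `r ≥ 1` (`D ∣ d r - 1`), the rest is at most `Λ₀ t / D`.  Coprime: `sieve_gen` with
`ap_a1` (`M = d t / (r₀ D φ(W) φ(d)) ≤ 2 t / D`), `sieve_one`, `lam_mul`, `V2_bd`, `rgh_totient`, `Nat.totient_le`. -/
theorem sieve_D {r₀ W c : ℕ} (h : Cl r₀ W c) {X Q : ℕ} {E z L Λ₀ : ℝ} (hAP : HypAP X Q E) (hE : 0 ≤ E)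
    (hz : 1 ≤ z) (hQz : ((r₀ * W : ℕ) : ℝ) ≤ z) (hLz : 4 * L ≤ z) (hΛ : lam r₀ W z ≤ Λ₀) {D d t k : ℕ}
    (hD : 1 ≤ D) (hd : 1 ≤ d) (rD : Rgh z D) (rd : Rgh z d) (hL : Real.log d ≤ L)
    (hQ : d * ⌊z⌋₊ ^ (k + 1) * W ≤ Q) (ht : d * t ≤ X) :
    |∑ r ∈ Icc 1 t, rg z r * (a1 r₀ W c D (d * r) - lam r₀ W z / D)| ≤ sB z k * (E + 1 + Λ₀) +
      (t : ℝ) / D * (4 * L / z + (4 + 2 * Λ₀) * sT2 z k + if Nat.Coprime d D then 0 else Λ₀) := by
  have hz0 : 0 < z := by linarith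
  have hL0 : 0 ≤ L := (Real.log_natCast_nonneg d).trans hL
  have hr : (1 : ℝ) ≤ r₀ := by exact_mod_cast h.hr
  have hφW : (1 : ℝ) ≤ Nat.totient W := by exact_mod_cast Nat.totient_pos.2 h.hW
  have hφd : (1 : ℝ) ≤ Nat.totient d := by exact_mod_cast Nat.totient_pos.2 hd
  have hD' : (1 : ℝ) ≤ D := by exact_mod_cast hD
  have hl0 : 0 ≤ lam r₀ W z := le_trans (by positivity) (lam_bd h z).1
  have hΛ0 : 0 ≤ Λ₀ := hl0.trans hΛ
  have hsB := sB_nonneg hz0.le k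
  have hsT := sT2_nonneg hz k
  have ht0 : (0 : ℝ) ≤ (t : ℝ) / D := by positivity
  have hLz0 : 0 ≤ 4 * L / z := by positivity
  have hsplit : ∑ r ∈ Icc 1 t, rg z r * (a1 r₀ W c D (d * r) - lam r₀ W z / D) =
      ∑ r ∈ Icc 1 t, rg z r * a1 r₀ W c D (d * r) - lam r₀ W z / D * ∑ r ∈ Icc 1 t, rg z r := by
    rw [mul_sum, ← sum_sub_distrib]
    exact sum_congr rfl fun r _ => by ring
  rw [hsplit]
  obtain ⟨hS0, hS1⟩ := m1_sum_rg z t
  by_cases hco : Nat.Coprime d D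
  swap
  · rw [if_neg hco, sum_eq_zero fun r hr => by rw [m1_a1_zero hd (mem_Icc.1 hr).1 hco, mul_zero], zero_sub,
      abs_neg, abs_of_nonneg (by positivity)]
    have h1 : lam r₀ W z / D * ∑ r ∈ Icc 1 t, rg z r ≤ Λ₀ / D * t := by gcongr
    have h2 : Λ₀ / D * t = (t : ℝ) / D * Λ₀ := by ring
    have h3 : 0 ≤ sB z k * (E + 1 + Λ₀) := by positivity
    have h4 : 0 ≤ (t : ℝ) / D * (4 * L / z + (4 + 2 * Λ₀) * sT2 z k) := by positivity
    rw [mul_add ((t : ℝ) / D) _ Λ₀]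
    linarith
  rw [if_pos hco, add_zero]
  have h2Q : 2 ∣ r₀ * W := h.h2.mul_right W
  set M : ℝ := (d : ℝ) * t / (r₀ * D * Nat.totient W * Nat.totient d) with hM
  have hM0 : 0 ≤ M := by positivity
  have hg := sieve_gen (u := fun r => a1 r₀ W c D (d * r)) (g := g2 (r₀ * W)) (M := M) (E := E + 1) (k := k)
    (t := t) hz (fun r => a1_nonneg _ _ _ _ _) (fun p hp => g2_bd h2Q ((mem_Pz hz0.le).1 hp).1) hM0
    (by linarith) (fun T hT hk => ap_a1 h hAP hE hz hQz hD hd rD rd hco hQ ht hT hk)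
  have ho := sieve_one hz k t
  change |_ - M * V2 (r₀ * W) z| ≤ _ at hg
  obtain ⟨hV0, hV1⟩ := V2_bd h2Q z
  have hlm := lam_mul r₀ W z
  have htot := rgh_totient hd rd hL hz0 hLz
  have hle : (Nat.totient d : ℝ) ≤ d := by exact_mod_cast Nat.totient_le d
  have hLz1 : 4 * L / z ≤ 1 := (div_le_one hz0).2 hLz
  set ρ : ℝ := (d : ℝ) / Nat.totient d with hρ
  have hρ1 : 1 ≤ ρ := (one_le_div (by linarith)).2 hle
  have hρ2 : ρ ≤ 1 + 4 * L / z := (div_le_iff₀ (by linarith)).2 htot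
  set κ : ℝ := 1 / (r₀ * Nat.totient W) with hκ
  have hκ0 : 0 ≤ κ := by positivity
  have hκ1 : κ ≤ 1 := (div_le_one (by positivity)).2 (by nlinarith)
  have eM : M = (t : ℝ) / D * κ * ρ := by
    rw [hM, hκ, hρ]; field_simp
  have e1 : lam r₀ W z / D * (t * V1 z) = (t : ℝ) / D * κ * V2 (r₀ * W) z := by
    rw [show lam r₀ W z / D * (t * V1 z) = (t : ℝ) / D * (lam r₀ W z * V1 z) by ring, hlm, hκ]
    ring
  have hM2 : M ≤ (t : ℝ) / D * 2 := by
    rw [eM, mul_assoc]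
    exact mul_le_mul_of_nonneg_left (by nlinarith) ht0
  have hA : |M * V2 (r₀ * W) z - lam r₀ W z / D * (t * V1 z)| ≤ (t : ℝ) / D * (4 * L / z) := by
    rw [e1, eM, show (t : ℝ) / D * κ * ρ * V2 (r₀ * W) z - (t : ℝ) / D * κ * V2 (r₀ * W) z =
      (t : ℝ) / D * (κ * V2 (r₀ * W) z * (ρ - 1)) by ring,
      abs_of_nonneg (mul_nonneg ht0 (mul_nonneg (mul_nonneg hκ0 hV0) (by linarith)))]
    refine mul_le_mul_of_nonneg_left ?_ ht0
    have h1 : κ * V2 (r₀ * W) z ≤ 1 := mul_le_one₀ hκ1 hV0 hV1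
    calc κ * V2 (r₀ * W) z * (ρ - 1) ≤ 1 * (4 * L / z) :=
          mul_le_mul h1 (by linarith) (by linarith) zero_le_one
      _ = _ := one_mul _
  have hB : |lam r₀ W z / D * (∑ r ∈ Icc 1 t, rg z r - t * V1 z)| ≤
      Λ₀ * sB z k + (t : ℝ) / D * (2 * Λ₀ * sT2 z k) := by
    rw [abs_mul, abs_of_nonneg (by positivity : 0 ≤ lam r₀ W z / D)]
    calc _ ≤ Λ₀ / D * (sB z k + 2 * t * sT2 z k) := by gcongr
      _ = Λ₀ / D * sB z k + (t : ℝ) / D * (2 * Λ₀ * sT2 z k) := by ring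
      _ ≤ _ := by
        have : Λ₀ / D ≤ Λ₀ := div_le_self hΛ0 hD'
        gcongr
  have hC : 2 * M * sT2 z k ≤ (t : ℝ) / D * (4 * sT2 z k) := by nlinarith
  have e2 : ∑ r ∈ Icc 1 t, rg z r * a1 r₀ W c D (d * r) - lam r₀ W z / D * ∑ r ∈ Icc 1 t, rg z r =
      (∑ r ∈ Icc 1 t, rg z r * a1 r₀ W c D (d * r) - M * V2 (r₀ * W) z) +
        (M * V2 (r₀ * W) z - lam r₀ W z / D * (t * V1 z)) -
        lam r₀ W z / D * (∑ r ∈ Icc 1 t, rg z r - t * V1 z) := by ring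
  rw [e2]
  refine (abs_sub _ _).trans ((add_le_add_left (abs_add_le _ _) _).trans ?_)
  have e3 : sB z k * (E + 1 + Λ₀) + (t : ℝ) / D * (4 * L / z + (4 + 2 * Λ₀) * sT2 z k) =
      sB z k * (E + 1) + (t : ℝ) / D * (4 * sT2 z k) + (t : ℝ) / D * (4 * L / z) +
        (Λ₀ * sB z k + (t : ℝ) / D * (2 * Λ₀ * sT2 z k)) := by ring
  rw [e3]
  linarith

theorem m1b_mult {l : ℕ} (hl : 0 < l) (n : ℕ) :
    ∑ d ∈ Icc 1 n, (if l ∣ d then 1 / (d : ℝ) else 0) ≤ 1 / (l : ℝ) * (1 + Real.log n) := by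
  rw [← sum_filter]
  have hsub : (Icc 1 n).filter (fun d => l ∣ d) ⊆ (Icc 1 n).image (fun e => l * e) := by
    intro d hd
    obtain ⟨hd1, e, rfl⟩ := mem_filter.1 hd
    obtain ⟨h1, h2⟩ := mem_Icc.1 hd1
    refine mem_image.2 ⟨e, mem_Icc.2 ⟨Nat.pos_of_mul_pos_left h1, ?_⟩, rfl⟩
    exact (Nat.le_mul_of_pos_left e hl).trans h2
  refine (sum_le_sum_of_subset_of_nonneg hsub fun _ _ _ => by positivity).trans ?_
  rw [sum_image fun a _ b _ h => Nat.eq_of_mul_eq_mul_left hl h]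
  refine le_trans (le_of_eq ?_) (mul_le_mul_of_nonneg_left (sum_inv_le n) (by positivity))
  rw [mul_sum]
  refine sum_congr rfl fun e _ => ?_
  push_cast
  rw [one_div_mul_one_div]

/-- such a `d` is a multiple of some `p g`; `∑_{d ≤ n, ℓ ∣ d} 1/d ≤ (1 + log n)/ℓ` (`S.sum_inv_le`) -/
theorem sum_ncop {K : ℕ} {p : Fin (K + 1) → ℕ} {z : ℝ} (hz : 0 < z) (hp : ∀ g, (p g).Prime ∧ z < p g) (n : ℕ) :
    ∑ d ∈ Icc 1 n, (if Nat.Coprime d (pv p) then 0 else 1 / (d : ℝ)) ≤ ((K : ℝ) + 1) / z * (1 + Real.log n) := by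
  have h1 : ∀ d ∈ Icc 1 n, (if Nat.Coprime d (pv p) then 0 else 1 / (d : ℝ)) ≤
      ∑ g, if p g ∣ d then 1 / (d : ℝ) else 0 := by
    intro d _
    have hnn : ∀ g ∈ (univ : Finset (Fin (K + 1))), (0 : ℝ) ≤ if p g ∣ d then 1 / (d : ℝ) else 0 :=
      fun g _ => by split_ifs <;> positivity
    split_ifs with hc
    · exact sum_nonneg hnn
    · have : ∃ g, p g ∣ d := by
        by_contra hn
        push Not at hn
        exact hc (Nat.Coprime.prod_right fun g _ =>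
          ((Nat.Prime.coprime_iff_not_dvd (hp g).1).2 (hn g)).symm)
      obtain ⟨g, hg⟩ := this
      refine le_trans ?_ (single_le_sum hnn (mem_univ g))
      rw [if_pos hg]
  refine (sum_le_sum h1).trans ?_
  rw [sum_comm]
  have hl : 0 ≤ 1 + Real.log n := by
    have := Real.log_natCast_nonneg n
    linarith
  refine (sum_le_card_nsmul _ _ (1 / z * (1 + Real.log n)) fun g _ => ?_).trans (le_of_eq ?_)
  · refine (m1b_mult (hp g).1.pos n).trans ?_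
    exact mul_le_mul_of_nonneg_right (one_div_le_one_div_of_le hz (hp g).2.le) hl
  · rw [card_univ, Fintype.card_fin, nsmul_eq_mul]
    push_cast
    ring

/-- `S.abel_log`, `S.abs_cI_le`, `S.abs_moebius_le`; the non-rough `d` contribute nothing -/
theorem typeI_gen {w E : ℕ → ℝ} {z L : ℝ} {X U : ℕ} (hU : U ^ 2 ≤ X) (hL : Real.log X ≤ L) (hE : ∀ d, 0 ≤ E d)
    (h : ∀ d t : ℕ, 1 ≤ d → d ≤ U ^ 2 → Rgh z d → d * t ≤ X → |∑ r ∈ Icc 1 t, rg z r * w (d * r)| ≤ E d) :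
    |TIa z w X U - TIb z w X U| ≤ 3 * L * ∑ d ∈ Icc 1 (U ^ 2), E d := by
  have hL0 : 0 ≤ L := (Real.log_natCast_nonneg X).trans hL
  have hUU : U ≤ U ^ 2 := Nat.le_self_pow two_ne_zero U
  have ha : |TIa z w X U| ≤ 2 * L * ∑ d ∈ Icc 1 (U ^ 2), E d := by
    refine (abs_sum_le_sum_abs _ _).trans ((sum_le_sum (g := fun m : ℕ => 2 * L * E m)
      fun m hm => ?_).trans ?_)
    · obtain ⟨h1, h2⟩ := mem_Icc.1 hm
      have hEm := hE m
      by_cases hr : Rgh z m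
      · have h3 := abel_log (fun r => rg z r * w (m * r)) (X / m) fun s hs =>
          h m s h1 (h2.trans hUU) hr ((Nat.mul_le_mul_left m hs).trans (Nat.mul_div_le X m))
        have h4 := (ti_log (Nat.div_le_self X m)).trans hL
        rw [abs_mul, abs_mul]
        refine (mul_le_of_le_one_left (abs_nonneg _)
          (mul_le_one₀ (abs_moebius_le m) (abs_nonneg _) (abs_rg_le z m))).trans (h3.trans ?_)
        gcongr
      · have : rg z m = 0 := if_neg hr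
        rw [this, mul_zero, zero_mul, abs_zero]
        positivity
    · rw [← mul_sum]
      exact mul_le_mul_of_nonneg_left (sum_le_sum_of_subset_of_nonneg (Icc_subset_Icc_right hUU)
        fun d _ _ => hE d) (by positivity)
  have hb : |TIb z w X U| ≤ L * ∑ d ∈ Icc 1 (U ^ 2), E d := by
    rw [mul_sum]
    refine (abs_sum_le_sum_abs _ _).trans (sum_le_sum fun m hm => ?_)
    obtain ⟨h1, h2⟩ := mem_Icc.1 hm
    have hEm := hE m
    by_cases hr : Rgh z m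
    · have h3 := h m (X / m) h1 h2 hr (Nat.mul_div_le X m)
      have h4 := (abs_cI_le U m).trans ((ti_log (h2.trans hU)).trans hL)
      rw [abs_mul, abs_mul]
      exact mul_le_mul ((mul_le_of_le_one_right (abs_nonneg _) (abs_rg_le z m)).trans h4) h3
        (abs_nonneg _) hL0
    · have : rg z m = 0 := if_neg hr
      rw [this, mul_zero, zero_mul, abs_zero]
      positivity
  have := abs_sub (TIa z w X U) (TIb z w X U)
  linarith

/-- `ww y = ∑_p (a1 (pv p) y - lam / pv p)` (`S.Vtot_eq_sum`); `typeI_gen` with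
`E d = N sB (E+1+Λ₀) + ∑_p X/(d · pv p) (… + if coprime then 0 else Λ₀)` (`sieve_D`, `t ≤ X/d`), `sum_comm`, `sum_ncop`,
`S.sum_inv_le` -/
theorem typeI {r₀ W c : ℕ} (h : Cl r₀ W c) {K : ℕ} {P : Fin (K + 1) → Finset ℕ} {X Q U k : ℕ} {E z L Λ₀ : ℝ}
    (hP : ∀ g, ∀ p ∈ P g, p.Prime ∧ z < p) (hAP : HypAP X Q E) (hE : 0 ≤ E) (hz : 1 ≤ z)
    (hQz : ((r₀ * W : ℕ) : ℝ) ≤ z) (hLz : 4 * L ≤ z) (hΛ : lam r₀ W z ≤ Λ₀) (hU : U ^ 2 ≤ X)
    (hQ : U ^ 2 * ⌊z⌋₊ ^ (k + 1) * W ≤ Q) (hL : Real.log X ≤ L) :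
    |TIa z (ww r₀ W c P z) X U - TIb z (ww r₀ W c P z) X U| ≤ BI K (Dvec P).card (Vtot P) L z E Λ₀ X U k := by
  have hL0 : 0 ≤ L := (Real.log_natCast_nonneg X).trans hL
  have hz0 : 0 < z := by linarith
  have hΛ0 : 0 ≤ Λ₀ := le_trans (le_trans (by positivity) (lam_bd h z).1) hΛ
  have a1' := sB_nonneg hz0.le k
  have a2 := sT2_nonneg hz k
  have hmem : ∀ p ∈ Dvec P, ∀ g, (p g).Prime ∧ z < p g := fun p hp g =>
    hP g _ (Fintype.mem_piFinset.1 hp g)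
  set s : ℝ := 4 * L / z + (4 + 2 * Λ₀) * sT2 z k with hs
  have hs0 : 0 ≤ s := by positivity
  set B : ℝ := sB z k * (E + 1 + Λ₀) with hB
  have hB0 : 0 ≤ B := by positivity
  have hlog : Real.log (U ^ 2 : ℕ) ≤ L := (ti_log hU).trans hL
  have key := typeI_gen (w := ww r₀ W c P z) (z := z) (E := fun d => ∑ p ∈ Dvec P,
    (B + (X : ℝ) / pv p * (s * (1 / d) + Λ₀ * if Nat.Coprime d (pv p) then 0 else 1 / (d : ℝ))))
    hU hL (fun d => sum_nonneg fun p _ => by split_ifs <;> positivity) (by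
      intro d t hd1 hd2 hr ht
      have hd0 : (0 : ℝ) < d := by exact_mod_cast hd1
      have ht' : (t : ℝ) ≤ X / d := by
        rw [le_div_iff₀ hd0, mul_comm]
        exact_mod_cast ht
      have e : ∀ r, rg z r * ww r₀ W c P z (d * r) =
          ∑ p ∈ Dvec P, rg z r * (a1 r₀ W c (pv p) (d * r) - lam r₀ W z / pv p) := by
        intro r
        rw [← mul_sum, sum_sub_distrib, ww, AA, Vtot_eq_sum, mul_sum]
        simp only [mul_one_div]
      simp only [e]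
      rw [sum_comm]
      refine (abs_sum_le_sum_abs _ _).trans (sum_le_sum fun p hp => ?_)
      have hD : 1 ≤ pv p := prod_pos fun g _ => (hmem p hp g).1.pos
      have rD : Rgh z (pv p) := fun l hl hd => by
        obtain ⟨g, -, hg⟩ := (Prime.dvd_finsetProd_iff hl.prime _).1 hd
        rw [(Nat.prime_dvd_prime_iff_eq hl (hmem p hp g).1).1 hg]
        exact (hmem p hp g).2
      refine (sieve_D h hAP hE hz hQz hLz hΛ hD hd1 rD hr ((ti_log (hd2.trans hU)).trans hL)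
        ((Nat.mul_le_mul_right _ (Nat.mul_le_mul_right _ hd2)).trans hQ) ht).trans ?_
      refine add_le_add_right ?_ _
      have h0 : 0 ≤ s + if Nat.Coprime d (pv p) then 0 else Λ₀ := by split_ifs <;> positivity
      calc (t : ℝ) / pv p * (s + if Nat.Coprime d (pv p) then 0 else Λ₀)
          ≤ (X : ℝ) / d / pv p * (s + if Nat.Coprime d (pv p) then 0 else Λ₀) := by gcongr
        _ = _ := by split_ifs <;> ring)
  refine key.trans ?_
  unfold BI
  rw [← hB, ← hs]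
  refine mul_le_mul_of_nonneg_left ?_ (by positivity)
  rw [sum_comm, Vtot_eq_sum, mul_sum, sum_mul, sum_mul, mul_left_comm, ← nsmul_eq_mul, ← sum_const,
    ← sum_add_distrib]
  refine sum_le_sum fun p hp => ?_
  rw [sum_add_distrib, sum_const, Nat.card_Icc, add_tsub_cancel_right, nsmul_eq_mul, ← mul_sum,
    sum_add_distrib, ← mul_sum, ← mul_sum]
  have b1 := (sum_inv_le (U ^ 2)).trans (add_le_add_right hlog 1)
  have b2 := (sum_ncop hz0 (hmem p hp) (U ^ 2)).trans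
    (mul_le_mul_of_nonneg_left (add_le_add_right hlog 1) (by positivity))
  refine add_le_add (le_of_eq (by push_cast; rfl)) ?_
  refine (mul_le_mul_of_nonneg_left (add_le_add (mul_le_mul_of_nonneg_left b1 hs0)
    (mul_le_mul_of_nonneg_left b2 hΛ0)) (by positivity)).trans (le_of_eq ?_)
  ring

end

end Crest.Agent.R27.M
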